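import Vale.Agent.P127.Stk.LibDom
import Vale.Agent.P127.U.CellD

/-!
# P106 / U / H711 / Arr : far records, deterministic part (helper711)

Levels `v i` (in blocks, `a i = m * v i`), precision `rk i` (digits) of the line, gain of one block in `J` levels.

* `Arr.gain` : `c` blocks are gained in `J c` levels.
* `Arr.rho` : if the slopes satisfy `|g j - g i| 2^-a_j ≤ K 2^-rk_i` then
  `|g z - g j| 2^-a_z ≤ 2 K 2^-(rk_j + m e)`, `e = (v z - v j) / (2 J)` (intermediate step in the middle).
* `geo` : `∑_{g ≤ D < N} 2^-(m (D / p)) ≤ 2 p 2^-(m (g / p))`.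
* `sum_far` : sum over `z ∈ Z` (at most `c` of them at each level) and over ALL unit steps `j` which are at least `g` levels before.
-/

set_option autoImplicit false

namespace Vale.Agent.P106.U.H711

open Finset
open Vale.Agent.P127.U.CellD (q2 q2_pos q2_le q2_add)

/-- levels and precision of a path, up to the step `n` -/
structure Arr (m J n : ℕ) (v rk : ℕ → ℕ) : Prop where
  J1 : 1 ≤ J
  mv : Monotone v
  sv : ∀ i < n, v (i + 1) ≤ v i + 1
  mr : Monotone rk
  adv : ∀ i j, i ≤ j → j ≤ n → v i + J ≤ v j → rk i + m ≤ rk j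

namespace Arr

variable {m J n : ℕ} {v rk : ℕ → ℕ}

/-- intermediate values -/
theorem mid (H : Arr m J n v rk) {j z x : ℕ} (hjz : j ≤ z) (hzn : z ≤ n) (hx : v j + x ≤ v z) :
    ∃ i, j ≤ i ∧ i ≤ z ∧ v i = v j + x := by
  induction z, hjz using Nat.le_induction with
  | base => exact ⟨j, le_rfl, le_rfl, by omega⟩
  | succ z hz ih =>
    by_cases h : v j + x ≤ v z
    · obtain ⟨i, h1, h2, h3⟩ := ih (by omega) h
      exact ⟨i, h1, by omega, h3⟩
    · have := H.sv z (by omega)
      exact ⟨z + 1, by omega, le_rfl, by omega⟩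

/-- gain of the precision -/
theorem gain (H : Arr m J n v rk) (c : ℕ) : ∀ {j z : ℕ}, j ≤ z → z ≤ n → v j + J * c ≤ v z → rk j + m * c ≤ rk z := by
  induction c with
  | zero =>
    intro j z h _ _
    simpa using H.mr h
  | succ c ih =>
    intro j z h hz hv
    have e : J * (c + 1) = J * c + J := by ring
    obtain ⟨i, h1, h2, h3⟩ := H.mid (x := J) h hz (by rw [e] at hv; omega)
    have a1 := H.adv j i h1 (h2.trans hz) (by omega)
    have a2 := ih h2 hz (by rw [h3]; rw [e] at hv; omega)
    have e2 : m * (c + 1) = m * c + m := by ring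
    omega

/-- **far records** -/
theorem rho (H : Arr m J n v rk) {K : ℝ} {g : ℕ → ℝ}
    (hg : ∀ i j, i ≤ j → j ≤ n → |g j - g i| * q2 (m * v j) ≤ K * q2 (rk i)) (hK : 0 ≤ K) {j z : ℕ} (hjz : j ≤ z)
    (hz : z ≤ n) :
    |g z - g j| * q2 (m * v z) ≤ 2 * K * q2 (rk j + m * ((v z - v j) / (2 * J))) := by
  set e := (v z - v j) / (2 * J) with he
  have hJ := H.J1
  have h1 : 2 * J * e ≤ v z - v j := Nat.mul_div_le _ _
  have h2 : 2 * J * e = J * e + J * e := by ring
  have h3 : v j ≤ v z := H.mv hjz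
  have h4 : e ≤ J * e := Nat.le_mul_of_pos_left e hJ
  obtain ⟨i, i1, i2, i3⟩ := H.mid (x := J * e) hjz hz (by omega)
  have h5 := H.gain e i1 (i2.trans hz) (by omega)
  have a1 := hg j i i1 (i2.trans hz)
  have a2 := hg i z i2 hz
  have h6 : |g z - g j| ≤ |g z - g i| + |g i - g j| := by
    have := abs_add_le (g z - g i) (g i - g j)
    rwa [sub_add_sub_cancel] at this
  have q0 := q2_pos (m * v z)
  have h7 : q2 (rk i) ≤ q2 (rk j + m * e) := q2_le h5
  have h8 : q2 (m * v z) ≤ q2 (m * v i) * q2 (m * e) := by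
    rw [← q2_add]
    refine q2_le ?_
    rw [← Nat.mul_add]
    exact Nat.mul_le_mul_left _ (by omega)
  have h9 : |g i - g j| * q2 (m * v z) ≤ K * q2 (rk j + m * e) := by
    calc |g i - g j| * q2 (m * v z) ≤ |g i - g j| * (q2 (m * v i) * q2 (m * e)) :=
          mul_le_mul_of_nonneg_left h8 (abs_nonneg _)
      _ = |g i - g j| * q2 (m * v i) * q2 (m * e) := by ring
      _ ≤ K * q2 (rk j) * q2 (m * e) := mul_le_mul_of_nonneg_right a1 (q2_pos _).le
      _ = K * q2 (rk j + m * e) := by rw [q2_add]; ring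
  have h10 : |g z - g i| * q2 (m * v z) ≤ K * q2 (rk j + m * e) :=
    a2.trans (mul_le_mul_of_nonneg_left h7 hK)
  have h11 := mul_le_mul_of_nonneg_right h6 q0.le
  rw [add_mul] at h11
  linarith

end Arr

/-! ### sums -/

/-- geometric sum over blocks of length `p` -/
theorem geo {m p : ℕ} (hm : 1 ≤ m) (hp : 1 ≤ p) (g N : ℕ) :
    ∑ D ∈ Ico g N, q2 (m * (D / p)) ≤ 2 * p * q2 (m * (g / p)) := by
  have h0 : (0 : ℝ) < p := by exact_mod_cast hp
  -- regroup by the quotient
  have h1 : ∑ D ∈ Ico g N, q2 (m * (D / p)) ≤ ∑ e ∈ Ico (g / p) (N / p + 1), (p : ℝ) * q2 (m * e) := by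
    have hmap : ∀ D ∈ Ico g N, D / p ∈ Ico (g / p) (N / p + 1) := by
      intro D hD
      rw [Finset.mem_Ico] at hD ⊢
      exact ⟨Nat.div_le_div_right hD.1, Nat.lt_succ_of_le (Nat.div_le_div_right hD.2.le)⟩
    rw [← Finset.sum_fiberwise_of_maps_to hmap]
    refine Finset.sum_le_sum fun e _ => ?_
    have h2 : ∀ D ∈ (Ico g N).filter (fun D => D / p = e), q2 (m * (D / p)) = q2 (m * e) := by
      intro D hD
      rw [(Finset.mem_filter.1 hD).2]
    rw [Finset.sum_congr rfl h2, Finset.sum_const, nsmul_eq_mul]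
    refine mul_le_mul_of_nonneg_right ?_ (q2_pos _).le
    have h3 : (Ico g N).filter (fun D => D / p = e) ⊆ Ico (p * e) (p * e + p) := by
      intro D hD
      rw [Finset.mem_filter] at hD
      rw [Finset.mem_Ico]
      have h4 := Nat.div_add_mod D p
      have h5 := Nat.mod_lt D hp
      rw [hD.2] at h4
      omega
    have h4 := Finset.card_le_card h3
    rw [Nat.card_Ico] at h4
    exact_mod_cast (by omega : ((Ico g N).filter (fun D => D / p = e)).card ≤ p)
  refine h1.trans ?_
  rw [← Finset.mul_sum]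
  have h2 : ∀ M : ℕ, ∑ e ∈ Ico (g / p) M, q2 (m * e) ≤ 2 * q2 (m * (g / p)) - (if g / p ≤ M then 2 * q2 (m * M) else 0) := by
    intro M
    induction M with
    | zero =>
      rw [Finset.Ico_eq_empty (Nat.not_lt_zero _), Finset.sum_empty]
      split_ifs with h
      · rw [Nat.le_zero.1 h]
        linarith
      · have := q2_pos (m * (g / p))
        linarith
    | succ M ih =>
      by_cases h : g / p ≤ M
      · rw [Finset.sum_Ico_succ_top h]
        rw [if_pos h] at ih
        rw [if_pos (by omega)]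
        have h3 : 2 * q2 (m * (M + 1)) ≤ q2 (m * M) := by
          have h4 : q2 (m * (M + 1)) ≤ q2 (m * M + 1) := q2_le (by
            have : m * (M + 1) = m * M + m := by ring
            omega)
          have h5 : q2 (m * M + 1) = q2 (m * M) / 2 := by
            unfold q2
            rw [pow_succ]
            ring
          rw [h5] at h4
          linarith
        linarith
      · rw [Finset.Ico_eq_empty (by omega), Finset.sum_empty]
        split_ifs with h6
        · have : M + 1 = g / p := by omega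
          rw [this]
          linarith
        · have := q2_pos (m * (g / p))
          linarith
  have h3 := h2 (N / p + 1)
  have h4 : ∑ e ∈ Ico (g / p) (N / p + 1), q2 (m * e) ≤ 2 * q2 (m * (g / p)) := by
    refine h3.trans ?_
    have := q2_pos (m * (N / p + 1))
    split_ifs <;> linarith
  calc (p : ℝ) * ∑ e ∈ Ico (g / p) (N / p + 1), q2 (m * e) ≤ p * (2 * q2 (m * (g / p))) :=
        mul_le_mul_of_nonneg_left h4 h0.le
    _ = _ := by ring

/-- **double sum over far pairs** : `z ∈ Z` (at most `c` at each level), `j` any step of `T`, at least `g` levels before -/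
theorem sum_far (v : ℕ → ℕ) (Z T : Finset ℕ) (c : ℕ) (hZ : ∀ x, (Z.filter fun z => v z = x).card ≤ c) (g : ℕ)
    (w : ℕ → ℝ) (hw : ∀ D, 0 ≤ w D) (W : ℝ) (hW : ∀ N, ∑ D ∈ Ico g N, w D ≤ W) :
    ∑ z ∈ Z, ∑ j ∈ T.filter (fun j => v j + g ≤ v z), w (v z - v j) ≤ T.card * (c * W) := by
  have e1 : ∑ z ∈ Z, ∑ j ∈ T.filter (fun j => v j + g ≤ v z), w (v z - v j) =
      ∑ j ∈ T, ∑ z ∈ Z.filter (fun z => v j + g ≤ v z), w (v z - v j) := by
    simp only [Finset.sum_filter]
    exact Finset.sum_comm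
  rw [e1]
  have h1 : ∀ j ∈ T, ∑ z ∈ Z.filter (fun z => v j + g ≤ v z), w (v z - v j) ≤ c * W := by
    intro j _
    set N := Z.sup v + 1 with hN
    have hmap : ∀ z ∈ Z.filter (fun z => v j + g ≤ v z), v z - v j ∈ Ico g N := by
      intro z hz
      rw [Finset.mem_filter] at hz
      rw [Finset.mem_Ico]
      have : v z ≤ Z.sup v := Finset.le_sup hz.1
      omega
    rw [← Finset.sum_fiberwise_of_maps_to hmap]
    have h2 : ∀ D ∈ Ico g N, ∑ z ∈ (Z.filter (fun z => v j + g ≤ v z)).filter (fun z => v z - v j = D), w (v z - v j) ≤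
        c * w D := by
      intro D _
      have h3 : ∀ z ∈ (Z.filter (fun z => v j + g ≤ v z)).filter (fun z => v z - v j = D), w (v z - v j) = w D := by
        intro z hz
        rw [(Finset.mem_filter.1 hz).2]
      rw [Finset.sum_congr rfl h3, Finset.sum_const, nsmul_eq_mul]
      refine mul_le_mul_of_nonneg_right ?_ (hw D)
      have h4 : (Z.filter (fun z => v j + g ≤ v z)).filter (fun z => v z - v j = D) ⊆ Z.filter (fun z => v z = v j + D) := by
        intro z hz
        simp only [Finset.mem_filter] at hz ⊢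
        exact ⟨hz.1.1, by omega⟩
      exact_mod_cast (Finset.card_le_card h4).trans (hZ _)
    refine (Finset.sum_le_sum h2).trans ?_
    rw [← Finset.mul_sum]
    exact mul_le_mul_of_nonneg_left (hW N) (Nat.cast_nonneg _)
  refine (Finset.sum_le_sum h1).trans ?_
  rw [Finset.sum_const, nsmul_eq_mul]

/-- the same with the weights `2^-(m (D / p))` -/
theorem sum_far_q2 {m p : ℕ} (hm : 1 ≤ m) (hp : 1 ≤ p) (v : ℕ → ℕ) (Z T : Finset ℕ) (c : ℕ)
    (hZ : ∀ x, (Z.filter fun z => v z = x).card ≤ c) (g : ℕ) :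
    ∑ z ∈ Z, ∑ j ∈ T.filter (fun j => v j + g ≤ v z), q2 (m * ((v z - v j) / p)) ≤
      T.card * (c * (2 * p * q2 (m * (g / p)))) :=
  sum_far v Z T c hZ g (fun D => q2 (m * (D / p))) (fun _ => (q2_pos _).le) _ fun N => geo hm hp g N

end Vale.Agent.P106.U.H711
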