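import Vale.Agent.P106.U.H101.TNest
import Vale.Agent.P106.U.H711.Arr
import Vale.Agent.P127.S.StepEx

/-!
# P106 / U / H711 / Far : far records, one choice of the offsets of the letter (helper711)

* `tower_fn` : tower property with a factor which is a function of the condition.
* `cs_cond` : Cauchy-Schwarz for `∑ E [1_I √ P(B | W)]`, different words `W x` for different labels `x`.
* `exists_oX` : as `H101.TN.exists_oT`, the input `D x ω` of the letter may depend on the label; with integer weights `c x ω`.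
* **`exists_far`** : offsets `oK oG oN` with
  `∑ E [1_I √ P(BadT | W x)] ≤ √(6 C0) ∑ E [1_I 2^-q]`, relative radii `C0 2^-2q`.
-/

set_option autoImplicit false

namespace Vale.Agent.P106.U.H711

open Finset Vale.Agent.P127 Vale.Agent.P127.Stk
open Vale.Agent.P127.U.CellD
open Vale.Agent.P106.U.Cell Vale.Agent.P106.U.S3.PthW
open Vale.Agent.P106.U.H101.TN (BadT genw wo3)

variable {Ω : Type} [Fintype Ω] {ι σ : Type*}

open Classical in
theorem prE_if (P : Law Ω) (E : Ω → Prop) : prE P E = P.ex (fun ω => if E ω then 1 else 0) := by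
  unfold prE Law.ex
  rw [Finset.sum_filter]
  refine Finset.sum_congr rfl fun ω _ => ?_
  beta_reduce
  by_cases h : E ω
  · rw [if_pos h, if_pos h, mul_one]
  · rw [if_neg h, if_neg h, mul_zero]

/-- tower property with a factor which is a function of the condition -/
theorem tower_fn (P : Law Ω) (Y : Ω → σ) (F h : Ω → ℝ)
    (hF : ∀ ω ω', 0 < P.w ω → 0 < P.w ω' → Y ω = Y ω' → F ω = F ω') :
    P.ex (fun ω => F ω * (P.cond Y (Y ω)).ex h) = P.ex (fun ω => F ω * h ω) := by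
  rw [← P127.S.StepEx.ex_tower P (fun ω => F ω * h ω) Y]
  refine P.ex_congr fun ω hω => ?_
  have hz := P.pr_pos Y hω
  rw [← Law.ex_const_mul]
  refine Law.ex_congr _ fun ω' h' => ?_
  obtain ⟨h1, h2⟩ := P127.S.StepEx.cond_supp hz h'
  rw [hF ω' ω h1 hω h2]

open Classical in
/-- **Cauchy-Schwarz** -/
theorem cs_cond (P : Law Ω) (S : Finset ι) (W : ι → Ω → σ) (I B : ι → Ω → Prop) (u c : ι → Ω → ℝ)
    (hu : ∀ x ω, 0 ≤ u x ω) (hc : ∀ x ω, 0 ≤ c x ω) (huc : ∀ x ∈ S, ∀ ω, 0 < P.w ω → I x ω → 1 ≤ u x ω * c x ω)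
    (hI : ∀ x ∈ S, ∀ ω ω', 0 < P.w ω → 0 < P.w ω' → W x ω = W x ω' → (I x ω ↔ I x ω') ∧ c x ω = c x ω') :
    ∑ x ∈ S, P.ex (fun ω => if I x ω then Real.sqrt (prE (P.cond (W x) (W x ω)) (B x)) else 0) ≤
      Real.sqrt (∑ x ∈ S, P.ex (fun ω => if I x ω then u x ω else 0)) *
        Real.sqrt (∑ x ∈ S, P.ex (fun ω => if I x ω ∧ B x ω then c x ω else 0)) := by
  have h1 : ∑ x ∈ S, P.ex (fun ω => if I x ω ∧ B x ω then c x ω else 0) =
      ∑ x ∈ S, P.ex (fun ω => if I x ω then c x ω * prE (P.cond (W x) (W x ω)) (B x) else 0) := by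
    refine Finset.sum_congr rfl fun x hx => ?_
    have e1 : P.ex (fun ω => if I x ω ∧ B x ω then c x ω else 0) =
        P.ex (fun ω => (if I x ω then c x ω else 0) * (if B x ω then 1 else 0)) := by
      refine P.ex_congr fun ω _ => ?_
      by_cases a : I x ω <;> by_cases b : B x ω <;> simp [a, b]
    have e2 : P.ex (fun ω => if I x ω then c x ω * prE (P.cond (W x) (W x ω)) (B x) else 0) =
        P.ex (fun ω => (if I x ω then c x ω else 0) * (P.cond (W x) (W x ω)).ex (fun ω => if B x ω then 1 else 0)) := by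
      refine P.ex_congr fun ω _ => ?_
      rw [prE_if]
      by_cases a : I x ω <;> simp [a]
    rw [e1, e2]
    refine (tower_fn P (W x) _ _ fun ω ω' p p' e => ?_).symm
    obtain ⟨a1, a2⟩ := hI x hx ω ω' p p' e
    by_cases a : I x ω
    · rw [if_pos a, if_pos (a1.1 a), a2]
    · rw [if_neg a, if_neg fun b => a (a1.2 b)]
  rw [h1]
  -- pairs
  set f : ι × Ω → ℝ := fun y => if I y.1 y.2 then u y.1 y.2 else 0 with hf
  set g : ι × Ω → ℝ := fun y => if I y.1 y.2 then c y.1 y.2 * prE (P.cond (W y.1) (W y.1 y.2)) (B y.1) else 0 with hg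
  have hpr : ∀ (Q : Law Ω) (E : Ω → Prop), 0 ≤ prE Q E := fun Q E => Finset.sum_nonneg fun ω _ => Q.nn ω
  have f0 : ∀ y, 0 ≤ f y := fun y => by
    rw [hf]
    beta_reduce
    split_ifs
    · exact hu _ _
    · exact le_rfl
  have g0 : ∀ y, 0 ≤ g y := fun y => by
    rw [hg]
    beta_reduce
    split_ifs
    · exact mul_nonneg (hc _ _) (hpr _ _)
    · exact le_rfl
  have e1 : ∑ x ∈ S, P.ex (fun ω => if I x ω then u x ω else 0) = ∑ y ∈ S ×ˢ (univ : Finset Ω), P.w y.2 * f y := by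
    rw [Finset.sum_product]
    rfl
  have e2 : ∑ x ∈ S, P.ex (fun ω => if I x ω then c x ω * prE (P.cond (W x) (W x ω)) (B x) else 0) =
      ∑ y ∈ S ×ˢ (univ : Finset Ω), P.w y.2 * g y := by
    rw [Finset.sum_product]
    rfl
  rw [e1, e2]
  have h2 : ∑ x ∈ S, P.ex (fun ω => if I x ω then Real.sqrt (prE (P.cond (W x) (W x ω)) (B x)) else 0) ≤
      ∑ y ∈ S ×ˢ (univ : Finset Ω), Real.sqrt (P.w y.2 * f y) * Real.sqrt (P.w y.2 * g y) := by
    rw [Finset.sum_product]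
    refine Finset.sum_le_sum fun x hx => ?_
    unfold Law.ex
    refine Finset.sum_le_sum fun ω _ => ?_
    beta_reduce
    have p := P.nn ω
    rw [← Real.sqrt_mul (mul_nonneg p (f0 _))]
    by_cases a : I x ω
    · rcases p.eq_or_lt with p0 | p0
      · rw [← p0, zero_mul]
        exact Real.sqrt_nonneg _
      · rw [hf, hg]
        simp only [a, if_true]
        have h3 := huc x hx ω p0 a
        have h4 := hpr (P.cond (W x) (W x ω)) (B x)
        refine Real.le_sqrt_of_sq_le ?_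
        rw [mul_pow, Real.sq_sqrt h4]
        nlinarith [mul_nonneg (mul_nonneg p p) h4, mul_nonneg (mul_nonneg (mul_nonneg p p) h4) (sub_nonneg.2 h3)]
    · rw [if_neg a, mul_zero]
      exact Real.sqrt_nonneg _
  refine h2.trans ?_
  have h3 := Real.sum_sqrt_mul_sqrt_le (S ×ˢ (univ : Finset Ω)) (f := fun y => P.w y.2 * f y) (g := fun y => P.w y.2 * g y)
    (fun y => mul_nonneg (P.nn _) (f0 y)) (fun y => mul_nonneg (P.nn _) (g0 y))
  exact h3

open Classical in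
/-- **generic offsets of the letter**, the input `D x ω` depends on the label -/
theorem exists_oX (P : Law Ω) (D : ι → Ω → Inp Ω) (S : Finset ι) (I : ι → Ω → Prop) (j : ι → Ω → ℕ)
    (ρ : ι → Ω → ℝ) (hρ : ∀ x ∈ S, ∀ ω, I x ω → 0 ≤ ρ x ω) :
    ∃ oK oG oN : ℝ, (0 < oK ∧ oK ≤ 1) ∧ (0 < oG ∧ oG ≤ 1) ∧ (0 < oN ∧ oN ≤ 1) ∧
      ∑ x ∈ S, prE P (fun ω => I x ω ∧ BadT (wo3 (D x ω) oK oG oN) (j x ω) (ρ x ω * q2 ((D x ω).rk (j x ω)))
        (ρ x ω * q2 ((D x ω).a (j x ω))) ω) ≤ 6 * ∑ x ∈ S, P.ex (fun ω => if I x ω then ρ x ω else 0) := by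
  obtain ⟨oN, n1, n2, n3⟩ := genw P S I (fun x ω => (D x ω).a (j x ω)) (fun x ω => (D x ω).Nc ω)
    (fun x ω => ρ x ω * q2 ((D x ω).a (j x ω))) fun x hx ω h => mul_nonneg (hρ x hx ω h) (q2_pos _).le
  obtain ⟨oK, k1, k2, k3⟩ := genw P S I (fun x ω => (D x ω).rk (j x ω)) (fun x ω => (D x ω).kR (j x ω) ω)
    (fun x ω => ρ x ω * q2 ((D x ω).rk (j x ω))) fun x hx ω h => mul_nonneg (hρ x hx ω h) (q2_pos _).le
  obtain ⟨oG, g1, g2, g3⟩ := genw P S I (fun x ω => (D x ω).rk (j x ω))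
    (fun x ω => (wo3 (D x ω) oK 0 oN).gR (j x ω) ω)
    (fun x ω => ρ x ω * q2 ((D x ω).rk (j x ω))) fun x hx ω h => mul_nonneg (hρ x hx ω h) (q2_pos _).le
  refine ⟨oK, oG, oN, ⟨k1, k2⟩, ⟨g1, g2⟩, ⟨n1, n2⟩, ?_⟩
  have e : ∀ (n : ι → Ω → ℕ), ∑ x ∈ S, P.ex (fun ω => if I x ω then 2 * (2 : ℝ) ^ (n x ω) * (ρ x ω * q2 (n x ω)) else 0) =
      2 * ∑ x ∈ S, P.ex (fun ω => if I x ω then ρ x ω else 0) := by
    intro n
    rw [Finset.mul_sum]
    refine Finset.sum_congr rfl fun x _ => ?_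
    unfold Law.ex
    rw [Finset.mul_sum]
    refine Finset.sum_congr rfl fun ω _ => ?_
    beta_reduce
    by_cases hI : I x ω
    · rw [if_pos hI, if_pos hI]
      have := q2_mul_pow (n x ω)
      linear_combination (2 * P.w ω * ρ x ω) * this
    · rw [if_neg hI, if_neg hI]
      ring
  rw [e (fun x ω => (D x ω).a (j x ω))] at n3
  rw [e (fun x ω => (D x ω).rk (j x ω))] at k3 g3
  have hm : ∀ (A B : Ω → Prop), (∀ ω, A ω → B ω) → prE P A ≤ prE P B := by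
    intro A B h
    unfold prE
    refine Finset.sum_le_sum_of_subset_of_nonneg ?_ fun ω _ _ => P.nn ω
    intro ω hω
    rw [Finset.mem_filter] at hω ⊢
    exact ⟨hω.1, h ω hω.2⟩
  have hor : ∀ (A B : Ω → Prop), prE P (fun ω => A ω ∨ B ω) ≤ prE P A + prE P B := by
    intro A B
    unfold prE
    simp only [Finset.sum_filter]
    rw [← Finset.sum_add_distrib]
    refine Finset.sum_le_sum fun ω _ => ?_
    have p := P.nn ω
    by_cases a : A ω <;> by_cases b : B ω <;> simp [a, b, p]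
  have h : ∀ x ∈ S, prE P (fun ω => I x ω ∧ BadT (wo3 (D x ω) oK oG oN) (j x ω) (ρ x ω * q2 ((D x ω).rk (j x ω)))
        (ρ x ω * q2 ((D x ω).a (j x ω))) ω) ≤
      prE P (fun ω => I x ω ∧ Nb ((D x ω).rk (j x ω)) ((D x ω).kR (j x ω) ω + oK)
        (ρ x ω * q2 ((D x ω).rk (j x ω)))) +
      (prE P (fun ω => I x ω ∧ Nb ((D x ω).rk (j x ω)) ((wo3 (D x ω) oK 0 oN).gR (j x ω) ω + oG)
        (ρ x ω * q2 ((D x ω).rk (j x ω)))) +
      prE P (fun ω => I x ω ∧ Nb ((D x ω).a (j x ω)) ((D x ω).Nc ω + oN)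
        (ρ x ω * q2 ((D x ω).a (j x ω))))) := by
    intro x _
    refine le_trans (hm _ (fun ω => (I x ω ∧ Nb ((D x ω).rk (j x ω)) ((D x ω).kR (j x ω) ω + oK)
        (ρ x ω * q2 ((D x ω).rk (j x ω)))) ∨ ((I x ω ∧ Nb ((D x ω).rk (j x ω)) ((wo3 (D x ω) oK 0 oN).gR (j x ω) ω + oG)
        (ρ x ω * q2 ((D x ω).rk (j x ω)))) ∨ (I x ω ∧ Nb ((D x ω).a (j x ω)) ((D x ω).Nc ω + oN)
        (ρ x ω * q2 ((D x ω).a (j x ω)))))) ?_) ?_
    · rintro ω ⟨hI, hb | hb | hb⟩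
      · exact Or.inl ⟨hI, hb⟩
      · exact Or.inr (Or.inl ⟨hI, hb⟩)
      · exact Or.inr (Or.inr ⟨hI, hb⟩)
    · refine (hor _ _).trans ?_
      have := hor (fun ω => I x ω ∧ Nb ((D x ω).rk (j x ω)) ((wo3 (D x ω) oK 0 oN).gR (j x ω) ω + oG)
        (ρ x ω * q2 ((D x ω).rk (j x ω)))) (fun ω => I x ω ∧ Nb ((D x ω).a (j x ω)) ((D x ω).Nc ω + oN)
        (ρ x ω * q2 ((D x ω).a (j x ω))))
      linarith
  refine (Finset.sum_le_sum h).trans ?_
  rw [Finset.sum_add_distrib, Finset.sum_add_distrib]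
  linarith

open Classical in
/-- the same with integer weights -/
theorem exists_oXc (P : Law Ω) (D : ι → Ω → Inp Ω) (S : Finset ι) (I : ι → Ω → Prop) (j : ι → Ω → ℕ)
    (c : ι → Ω → ℕ) (ρ : ι → Ω → ℝ) (hρ : ∀ x ∈ S, ∀ ω, I x ω → 0 ≤ ρ x ω) :
    ∃ oK oG oN : ℝ, (0 < oK ∧ oK ≤ 1) ∧ (0 < oG ∧ oG ≤ 1) ∧ (0 < oN ∧ oN ≤ 1) ∧
      ∑ x ∈ S, P.ex (fun ω => if I x ω ∧ BadT (wo3 (D x ω) oK oG oN) (j x ω) (ρ x ω * q2 ((D x ω).rk (j x ω)))
        (ρ x ω * q2 ((D x ω).a (j x ω))) ω then (c x ω : ℝ) else 0) ≤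
        6 * ∑ x ∈ S, P.ex (fun ω => if I x ω then c x ω * ρ x ω else 0) := by
  set M := S.sup (fun x => univ.sup (c x)) with hM
  have hcM : ∀ x ∈ S, ∀ ω, c x ω ≤ M := by
    intro x hx ω
    exact (Finset.le_sup (f := c x) (Finset.mem_univ ω)).trans (Finset.le_sup (f := fun x => univ.sup (c x)) hx)
  obtain ⟨oK, oG, oN, h1, h2, h3, h4⟩ := exists_oX P (fun x : ι × ℕ => D x.1) (S ×ˢ range M)
    (fun x ω => I x.1 ω ∧ x.2 < c x.1 ω) (fun x => j x.1) (fun x => ρ x.1)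
    (fun x hx ω h => hρ x.1 (Finset.mem_product.1 hx).1 ω h.1)
  refine ⟨oK, oG, oN, h1, h2, h3, ?_⟩
  have key : ∀ x ∈ S, ∀ (A : Ω → Prop) (f : Ω → ℝ), ∑ r ∈ range M, P.ex (fun ω => if A ω ∧ r < c x ω then f ω else 0) =
      P.ex (fun ω => if A ω then c x ω * f ω else 0) := by
    intro x hx A f
    unfold Law.ex
    rw [Finset.sum_comm]
    refine Finset.sum_congr rfl fun ω _ => ?_
    beta_reduce
    rw [← Finset.mul_sum]
    congr 1
    by_cases a : A ω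
    · simp only [a, true_and, if_true]
      rw [← Finset.sum_filter, Finset.sum_const, nsmul_eq_mul]
      congr 2
      have : (range M).filter (fun r => r < c x ω) = range (c x ω) := by
        ext r
        simp only [Finset.mem_filter, Finset.mem_range]
        have := hcM x hx ω
        omega
      rw [this, Finset.card_range]
    · simp [a]
  rw [Finset.sum_product, Finset.sum_product] at h4
  have e1 : ∑ x ∈ S, P.ex (fun ω => if I x ω ∧ BadT (wo3 (D x ω) oK oG oN) (j x ω) (ρ x ω * q2 ((D x ω).rk (j x ω)))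
        (ρ x ω * q2 ((D x ω).a (j x ω))) ω then (c x ω : ℝ) else 0) =
      ∑ x ∈ S, ∑ r ∈ range M, prE P (fun ω => (I x ω ∧ r < c x ω) ∧ BadT (wo3 (D x ω) oK oG oN) (j x ω)
        (ρ x ω * q2 ((D x ω).rk (j x ω))) (ρ x ω * q2 ((D x ω).a (j x ω))) ω) := by
    refine Finset.sum_congr rfl fun x hx => ?_
    have := key x hx (fun ω => I x ω ∧ BadT (wo3 (D x ω) oK oG oN) (j x ω) (ρ x ω * q2 ((D x ω).rk (j x ω)))
        (ρ x ω * q2 ((D x ω).a (j x ω))) ω) (fun _ => 1)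
    simp only [mul_one] at this
    rw [← this]
    refine Finset.sum_congr rfl fun r _ => ?_
    rw [prE_if]
    refine P.ex_congr fun ω _ => ?_
    by_cases a : I x ω <;> by_cases b : r < c x ω <;> simp [a, b]
  have e2 : ∑ x ∈ S, ∑ r ∈ range M, P.ex (fun ω => if I x ω ∧ r < c x ω then ρ x ω else 0) =
      ∑ x ∈ S, P.ex (fun ω => if I x ω then c x ω * ρ x ω else 0) :=
    Finset.sum_congr rfl fun x hx => key x hx (I x) (ρ x)
  rw [e1, ← e2]
  refine h4.trans (le_of_eq ?_)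
  congr 1
  refine Finset.sum_congr rfl fun x _ => ?_
  refine Finset.sum_congr rfl fun r _ => ?_
  refine P.ex_congr fun ω _ => ?_
  by_cases a : I x ω <;> by_cases b : r < c x ω <;> simp [a, b]

open Classical in
/-- **one choice of the offsets of the letter for all far records** : relative radius `C0 2^-2q`, `q = q x ω` and the flag are
functions of the word `W x` -/
theorem exists_far (P : Law Ω) (S : Finset ι) (W : ι → Ω → σ) (D : ι → Ω → Inp Ω) (I : ι → Ω → Prop) (j q : ι → Ω → ℕ)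
    {C0 : ℝ} (hC : 0 ≤ C0)
    (hI : ∀ x ∈ S, ∀ ω ω', 0 < P.w ω → 0 < P.w ω' → W x ω = W x ω' → (I x ω ↔ I x ω') ∧ q x ω = q x ω') :
    ∃ oK oG oN : ℝ, (0 < oK ∧ oK ≤ 1) ∧ (0 < oG ∧ oG ≤ 1) ∧ (0 < oN ∧ oN ≤ 1) ∧
      ∑ x ∈ S, P.ex (fun ω => if I x ω then Real.sqrt (prE (P.cond (W x) (W x ω)) (fun ω' =>
        BadT (wo3 (D x ω') oK oG oN) (j x ω') (C0 * q2 (2 * q x ω') * q2 ((D x ω').rk (j x ω')))
        (C0 * q2 (2 * q x ω') * q2 ((D x ω').a (j x ω'))) ω')) else 0) ≤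
      Real.sqrt (6 * C0) * ∑ x ∈ S, P.ex (fun ω => if I x ω then q2 (q x ω) else 0) := by
  obtain ⟨oK, oG, oN, h1, h2, h3, h4⟩ := exists_oXc P D S I j (fun x ω => 2 ^ q x ω)
    (fun x ω => C0 * q2 (2 * q x ω)) (fun x _ ω _ => mul_nonneg hC (q2_pos _).le)
  refine ⟨oK, oG, oN, h1, h2, h3, ?_⟩
  set Z1 := ∑ x ∈ S, P.ex (fun ω => if I x ω then q2 (q x ω) else 0) with hZ
  have e0 : ∀ n : ℕ, ((2 ^ n : ℕ) : ℝ) * (C0 * q2 (2 * n)) = C0 * q2 n := by
    intro n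
    have := q2_mul_pow n
    rw [two_mul, q2_add]
    push_cast
    linear_combination (C0 * q2 n) * this
  have e1 : ∑ x ∈ S, P.ex (fun ω => if I x ω then ((2 ^ q x ω : ℕ) : ℝ) * (C0 * q2 (2 * q x ω)) else 0) = C0 * Z1 := by
    rw [hZ, Finset.mul_sum]
    refine Finset.sum_congr rfl fun x _ => ?_
    rw [← Law.ex_const_mul]
    refine P.ex_congr fun ω _ => ?_
    by_cases a : I x ω
    · rw [if_pos a, if_pos a, e0]
    · rw [if_neg a, if_neg a, mul_zero]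
  rw [e1] at h4
  have h5 := cs_cond P S W I (fun x ω' => BadT (wo3 (D x ω') oK oG oN) (j x ω')
        (C0 * q2 (2 * q x ω') * q2 ((D x ω').rk (j x ω'))) (C0 * q2 (2 * q x ω') * q2 ((D x ω').a (j x ω'))) ω')
    (fun x ω => q2 (q x ω)) (fun x ω => ((2 ^ q x ω : ℕ) : ℝ)) (fun _ _ => (q2_pos _).le) (fun _ _ => Nat.cast_nonneg _)
    (fun x _ ω _ _ => by
      have := q2_mul_pow (q x ω)
      push_cast
      linarith)
    (fun x hx ω ω' p p' e => by
      obtain ⟨a1, a2⟩ := hI x hx ω ω' p p' e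
      exact ⟨a1, by rw [a2]⟩)
  refine h5.trans ?_
  have hZ0 : 0 ≤ Z1 := by
    rw [hZ]
    refine Finset.sum_nonneg fun x _ => ?_
    unfold Law.ex
    refine Finset.sum_nonneg fun ω _ => ?_
    beta_reduce
    split_ifs
    · exact mul_nonneg (P.nn _) (q2_pos _).le
    · rw [mul_zero]
  have h6 := Real.sqrt_le_sqrt h4
  calc Real.sqrt Z1 * Real.sqrt _ ≤ Real.sqrt Z1 * Real.sqrt (6 * (C0 * Z1)) :=
        mul_le_mul_of_nonneg_left h6 (Real.sqrt_nonneg _)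
    _ = Real.sqrt (6 * C0) * Z1 := by
      rw [show 6 * (C0 * Z1) = 6 * C0 * Z1 by ring, Real.sqrt_mul (by positivity)]
      have := Real.mul_self_sqrt hZ0
      linear_combination (Real.sqrt (6 * C0)) * this

/-- comparison on the support -/
theorem prE_supp (Q : Law Ω) (A B : Ω → Prop) (h : ∀ ω, 0 < Q.w ω → A ω → B ω) : prE Q A ≤ prE Q B := by
  classical
  unfold prE
  rw [Finset.sum_filter, Finset.sum_filter]
  refine Finset.sum_le_sum fun ω _ => ?_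
  rcases (Q.nn ω).eq_or_lt with h0 | h0
  · rw [← h0]
    simp
  · by_cases a : A ω
    · rw [if_pos a, if_pos (h ω h0 a)]
    · rw [if_neg a]
      split_ifs
      · exact h0.le
      · exact le_rfl

/-- sums and expectations -/
theorem ex_sum {α : Type*} (P : Law Ω) (S : Finset α) (f : α → Ω → ℝ) :
    P.ex (fun ω => ∑ x ∈ S, f x ω) = ∑ x ∈ S, P.ex (f x) := by
  unfold Law.ex
  rw [Finset.sum_comm]
  refine Finset.sum_congr rfl fun ω _ => ?_
  beta_reduce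
  rw [Finset.mul_sum]

open Classical in
/-- **far records, summed** : labels `y ∈ Y` (places and caps of the selection), word `W y`, input `D y e` and numbers of the value
`e` of the word; `z ∈ Z y e` (at most `c` at each level), `j` any step at least `g` levels before.  The cost of `(y, e)` is
`∑_z ∑_j √ P(BadT | W y = e)` -/
theorem exists_far_sum {κ : Type*} (P : Law Ω) (Y : Finset κ) (W : κ → Ω → σ) (D : κ → σ → Inp Ω) (N : ℕ)
    (v : κ → σ → ℕ → ℕ) (Z : κ → σ → Finset ℕ) (c g : ℕ) {m p : ℕ} (hm : 1 ≤ m) (hp : 1 ≤ p)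
    (hZN : ∀ y ∈ Y, ∀ ω, 0 < P.w ω → Z y (W y ω) ⊆ range N)
    (hZ : ∀ y ∈ Y, ∀ ω, 0 < P.w ω → ∀ x, ((Z y (W y ω)).filter fun z => v y (W y ω) z = x).card ≤ c)
    {C0 : ℝ} (hC : 0 ≤ C0) :
    ∃ oK oG oN : ℝ, (0 < oK ∧ oK ≤ 1) ∧ (0 < oG ∧ oG ≤ 1) ∧ (0 < oN ∧ oN ≤ 1) ∧
      ∑ y ∈ Y, P.ex (fun ω => ∑ z ∈ Z y (W y ω), ∑ j ∈ (range N).filter (fun j => v y (W y ω) j + g ≤ v y (W y ω) z),
        Real.sqrt (prE (P.cond (W y) (W y ω)) (BadT (wo3 (D y (W y ω)) oK oG oN) j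
          (C0 * q2 (2 * (m * ((v y (W y ω) z - v y (W y ω) j) / p))) * q2 ((D y (W y ω)).rk j))
          (C0 * q2 (2 * (m * ((v y (W y ω) z - v y (W y ω) j) / p))) * q2 ((D y (W y ω)).a j))))) ≤
      Real.sqrt (6 * C0) * (Y.card * (N * (c * (2 * p * q2 (m * (g / p)))))) := by
  set S : Finset (κ × ℕ × ℕ) := Y ×ˢ (range N ×ˢ range N) with hS
  obtain ⟨I, hI⟩ : ∃ I : κ × ℕ × ℕ → Ω → Prop, ∀ x ω, I x ω ↔ (x.2.1 ∈ Z x.1 (W x.1 ω) ∧
      v x.1 (W x.1 ω) x.2.2 + g ≤ v x.1 (W x.1 ω) x.2.1) := ⟨_, fun _ _ => Iff.rfl⟩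
  obtain ⟨q, hq⟩ : ∃ q : κ × ℕ × ℕ → Ω → ℕ, ∀ x ω, q x ω =
      m * ((v x.1 (W x.1 ω) x.2.1 - v x.1 (W x.1 ω) x.2.2) / p) := ⟨_, fun _ _ => rfl⟩
  obtain ⟨oK, oG, oN, h1, h2, h3, h4⟩ := exists_far P S (fun x => W x.1) (fun x ω => D x.1 (W x.1 ω)) I
    (fun x _ => x.2.2) q hC (fun x _ ω ω' _ _ e => by
      have e' : W x.1 ω = W x.1 ω' := e
      rw [hI, hI, hq, hq, e']
      exact ⟨Iff.rfl, rfl⟩)
  refine ⟨oK, oG, oN, h1, h2, h3, ?_⟩
  -- exchange of the sums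
  have key : ∀ y ∈ Y, ∀ F : κ × ℕ × ℕ → Ω → ℝ, P.ex (fun ω => ∑ z ∈ Z y (W y ω),
      ∑ j ∈ (range N).filter (fun j => v y (W y ω) j + g ≤ v y (W y ω) z), F (y, z, j) ω) =
      ∑ r ∈ range N ×ˢ range N, P.ex (fun ω => if I (y, r) ω then F (y, r) ω else 0) := by
    intro y hy F
    rw [← ex_sum]
    refine P.ex_congr fun ω hω => ?_
    rw [Finset.sum_product]
    have e1 : ∑ z ∈ range N, ∑ j ∈ range N, (if I (y, z, j) ω then F (y, z, j) ω else 0) =
        ∑ z ∈ range N, if z ∈ Z y (W y ω) then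
          ∑ j ∈ (range N).filter (fun j => v y (W y ω) j + g ≤ v y (W y ω) z), F (y, z, j) ω else 0 := by
      refine Finset.sum_congr rfl fun z _ => ?_
      by_cases a : z ∈ Z y (W y ω)
      · rw [if_pos a, Finset.sum_filter]
        refine Finset.sum_congr rfl fun j _ => ?_
        by_cases b : v y (W y ω) j + g ≤ v y (W y ω) z
        · rw [if_pos b, if_pos ((hI _ _).2 ⟨a, b⟩)]
        · rw [if_neg b, if_neg fun h => b ((hI _ _).1 h).2]
      · rw [if_neg a]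
        exact Finset.sum_eq_zero fun j _ => if_neg fun h => a ((hI _ _).1 h).1
    rw [e1, ← Finset.sum_filter]
    refine Finset.sum_congr ?_ fun _ _ => rfl
    ext z
    rw [Finset.mem_filter]
    exact ⟨fun h => ⟨hZN y hy ω hω h, h⟩, fun h => h.2⟩
  have e2 : ∀ F : κ × ℕ × ℕ → Ω → ℝ, ∑ x ∈ S, P.ex (fun ω => if I x ω then F x ω else 0) =
      ∑ y ∈ Y, P.ex (fun ω => ∑ z ∈ Z y (W y ω),
        ∑ j ∈ (range N).filter (fun j => v y (W y ω) j + g ≤ v y (W y ω) z), F (y, z, j) ω) := by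
    intro F
    rw [hS, Finset.sum_product]
    exact Finset.sum_congr rfl fun y hy => (key y hy F).symm
  rw [e2 (fun x ω => Real.sqrt (prE (P.cond (W x.1) (W x.1 ω)) fun ω' =>
      BadT (wo3 (D x.1 (W x.1 ω')) oK oG oN) x.2.2 (C0 * q2 (2 * q x ω') * q2 ((D x.1 (W x.1 ω')).rk x.2.2))
        (C0 * q2 (2 * q x ω') * q2 ((D x.1 (W x.1 ω')).a x.2.2)) ω')), e2 (fun x ω => q2 (q x ω))] at h4
  -- left side
  have e3 : ∑ y ∈ Y, P.ex (fun ω => ∑ z ∈ Z y (W y ω), ∑ j ∈ (range N).filter (fun j => v y (W y ω) j + g ≤ v y (W y ω) z),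
        Real.sqrt (prE (P.cond (W y) (W y ω)) (BadT (wo3 (D y (W y ω)) oK oG oN) j
          (C0 * q2 (2 * (m * ((v y (W y ω) z - v y (W y ω) j) / p))) * q2 ((D y (W y ω)).rk j))
          (C0 * q2 (2 * (m * ((v y (W y ω) z - v y (W y ω) j) / p))) * q2 ((D y (W y ω)).a j))))) ≤
      ∑ y ∈ Y, P.ex (fun ω => ∑ z ∈ Z y (W y ω), ∑ j ∈ (range N).filter (fun j => v y (W y ω) j + g ≤ v y (W y ω) z),
        Real.sqrt (prE (P.cond (W y) (W y ω)) (fun ω' => BadT (wo3 (D y (W y ω')) oK oG oN) j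
          (C0 * q2 (2 * q (y, z, j) ω') * q2 ((D y (W y ω')).rk j))
          (C0 * q2 (2 * q (y, z, j) ω') * q2 ((D y (W y ω')).a j)) ω'))) := by
    refine Finset.sum_le_sum fun y _ => P.ex_mono fun ω hω => ?_
    refine Finset.sum_le_sum fun z _ => Finset.sum_le_sum fun j _ => Real.sqrt_le_sqrt ?_
    have hz := P.pr_pos (W y) hω
    refine prE_supp _ _ _ fun ω' h0 hB => ?_
    obtain ⟨_, e⟩ := P127.S.StepEx.cond_supp hz h0
    rw [hq, e]
    exact hB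
  refine e3.trans (h4.trans ?_)
  refine mul_le_mul_of_nonneg_left ?_ (Real.sqrt_nonneg _)
  have h5 : ∀ y ∈ Y, P.ex (fun ω => ∑ z ∈ Z y (W y ω),
        ∑ j ∈ (range N).filter (fun j => v y (W y ω) j + g ≤ v y (W y ω) z), q2 (q (y, z, j) ω)) ≤
      N * (c * (2 * p * q2 (m * (g / p)))) := by
    intro y hy
    have h6 : P.ex (fun ω => ∑ z ∈ Z y (W y ω),
        ∑ j ∈ (range N).filter (fun j => v y (W y ω) j + g ≤ v y (W y ω) z), q2 (q (y, z, j) ω)) ≤
        P.ex (fun _ => (N * (c * (2 * p * q2 (m * (g / p)))) : ℝ)) := by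
      refine P.ex_mono fun ω hω => ?_
      have := sum_far_q2 hm hp (v y (W y ω)) (Z y (W y ω)) (range N) c (hZ y hy ω hω) g
      rw [Finset.card_range] at this
      simp only [hq]
      exact this
    rwa [Law.ex_const] at h6
  refine (Finset.sum_le_sum h5).trans ?_
  rw [Finset.sum_const, nsmul_eq_mul]

end Vale.Agent.P106.U.H711
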