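import Vale.Agent.P106.U.H711.Far

/-!
# P106 / U / H711 / AvgS : averages of `√ P(E | w')` over places and labels (helper711)

* `cs_ex` : Cauchy-Schwarz over labels and points.
* **`sqrt_avg`**, `sqrt_avg'` : `∑_y ∑_x E [1_on √ P(E | w' y)] ≤ √(#Y N) √(∑_y E [∑_x 1_val P(E | w y)])`, `w y` function of `w' y`
  (`sqrt_avg'` : the event depends on the validity).
* `sum_inj_le` : a sum over valid labels is at most the sum over the steps.
-/

set_option autoImplicit false

namespace Vale.Agent.P106.U.H711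

open Finset Vale.Agent.P127 Vale.Agent.P127.Stk

variable {Ω : Type} [Fintype Ω]

theorem prE_nn (Q : Law Ω) (E : Ω → Prop) : 0 ≤ prE Q E := by
  classical
  exact Finset.sum_nonneg fun ω _ => Q.nn ω

/-- Cauchy-Schwarz over labels and points -/
theorem cs_ex {ι : Type*} (P : Law Ω) (S : Finset ι) (f g : ι → Ω → ℝ) (f0 : ∀ x ω, 0 ≤ f x ω) (g0 : ∀ x ω, 0 ≤ g x ω) :
    ∑ x ∈ S, P.ex (fun ω => Real.sqrt (f x ω) * Real.sqrt (g x ω)) ≤
      Real.sqrt (∑ x ∈ S, P.ex (f x)) * Real.sqrt (∑ x ∈ S, P.ex (g x)) := by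
  have e1 : ∀ h : ι → Ω → ℝ, ∑ x ∈ S, P.ex (h x) = ∑ y ∈ S ×ˢ (univ : Finset Ω), P.w y.2 * h y.1 y.2 := by
    intro h
    rw [Finset.sum_product]
    rfl
  rw [e1, e1, e1]
  refine le_trans (Finset.sum_le_sum fun y _ => ?_) (Real.sum_sqrt_mul_sqrt_le (S ×ˢ (univ : Finset Ω))
    (f := fun y => P.w y.2 * f y.1 y.2) (g := fun y => P.w y.2 * g y.1 y.2)
    (fun y => mul_nonneg (P.nn _) (f0 _ _)) (fun y => mul_nonneg (P.nn _) (g0 _ _)))
  have p := P.nn y.2
  rw [Real.sqrt_mul p, Real.sqrt_mul p]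
  have := Real.mul_self_sqrt p
  have h1 : P.w y.2 * (Real.sqrt (f y.1 y.2) * Real.sqrt (g y.1 y.2)) =
      Real.sqrt (P.w y.2) * Real.sqrt (f y.1 y.2) * (Real.sqrt (P.w y.2) * Real.sqrt (g y.1 y.2)) := by
    linear_combination (-(Real.sqrt (f y.1 y.2) * Real.sqrt (g y.1 y.2))) * this
  exact h1.le

open Classical in
/-- **averages of `√ P(E | w')`** -/
theorem sqrt_avg {ι α W W' : Type*} (P : Law Ω) (Y : Finset ι) (X : Finset α) (w : ι → Ω → W) (w' : ι → Ω → W')
    (hw : ∀ y ∈ Y, Fn P (w y) (w' y)) (on : ι → α → Ω → Prop) (val : ι → α → W → Prop)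
    (hv : ∀ y ∈ Y, ∀ x ∈ X, ∀ ω, 0 < P.w ω → on y x ω → val y x (w y ω)) (E : ι → α → W → Ω → Prop) {N : ℝ}
    (hN : ∀ y ∈ Y, ∀ ω, 0 < P.w ω → ((X.filter fun x => on y x ω).card : ℝ) ≤ N) :
    ∑ y ∈ Y, ∑ x ∈ X, P.ex (fun ω => if on y x ω then
      Real.sqrt (prE (P.cond (w' y) (w' y ω)) (E y x (w y ω))) else 0) ≤
      Real.sqrt (Y.card * N) * Real.sqrt (∑ y ∈ Y, P.ex (fun ω => ∑ x ∈ X, if val y x (w y ω) then
        prE (P.cond (w y) (w y ω)) (E y x (w y ω)) else 0)) := by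
  set f : ι × α → Ω → ℝ := fun y ω => if on y.1 y.2 ω then 1 else 0 with hf
  set g : ι × α → Ω → ℝ := fun y ω => if on y.1 y.2 ω then
    prE (P.cond (w' y.1) (w' y.1 ω)) (E y.1 y.2 (w y.1 ω)) else 0 with hg
  have f0 : ∀ y ω, 0 ≤ f y ω := fun y ω => by
    rw [hf]
    beta_reduce
    split_ifs <;> norm_num
  have g0 : ∀ y ω, 0 ≤ g y ω := fun y ω => by
    rw [hg]
    beta_reduce
    split_ifs
    · exact prE_nn _ _
    · exact le_rfl
  have h1 : ∑ y ∈ Y, ∑ x ∈ X, P.ex (fun ω => if on y x ω then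
      Real.sqrt (prE (P.cond (w' y) (w' y ω)) (E y x (w y ω))) else 0) =
      ∑ y ∈ Y ×ˢ X, P.ex (fun ω => Real.sqrt (f y ω) * Real.sqrt (g y ω)) := by
    rw [Finset.sum_product]
    refine Finset.sum_congr rfl fun y _ => Finset.sum_congr rfl fun x _ => P.ex_congr fun ω _ => ?_
    simp only [hf, hg]
    by_cases h : on y x ω
    · rw [if_pos h, if_pos h, if_pos h, Real.sqrt_one, one_mul]
    · rw [if_neg h, if_neg h, if_neg h, Real.sqrt_zero, zero_mul]
  rw [h1]
  refine (cs_ex P (Y ×ˢ X) f g f0 g0).trans ?_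
  refine mul_le_mul (Real.sqrt_le_sqrt ?_) (Real.sqrt_le_sqrt ?_) (Real.sqrt_nonneg _) (Real.sqrt_nonneg _)
  · rw [Finset.sum_product]
    have h2 : ∀ y ∈ Y, ∑ x ∈ X, P.ex (f (y, x)) ≤ N := by
      intro y hy
      rw [← ex_sum P X fun x => f (y, x), ← P.ex_const N]
      refine P.ex_mono fun ω hω => ?_
      refine le_trans (le_of_eq ?_) (hN y hy ω hω)
      simp only [hf]
      rw [Finset.sum_ite, Finset.sum_const_zero, add_zero, Finset.sum_const, nsmul_eq_mul, mul_one]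
    refine (Finset.sum_le_sum h2).trans ?_
    rw [Finset.sum_const, nsmul_eq_mul]
  · rw [Finset.sum_product]
    refine Finset.sum_le_sum fun y hy => ?_
    rw [ex_sum P X fun x ω => if val y x (w y ω) then prE (P.cond (w y) (w y ω)) (E y x (w y ω)) else 0]
    refine Finset.sum_le_sum fun x hx => ?_
    -- from the condition `w'` to `w`
    have t1 : P.ex (g (y, x)) ≤ P.ex (fun ω => (if val y x (w y ω) then 1 else 0) *
        (P.cond (w' y) (w' y ω)).ex (fun ω' => if E y x (w y ω') ω' then 1 else 0)) := by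
      refine P.ex_mono fun ω hω => ?_
      have e1 : prE (P.cond (w' y) (w' y ω)) (E y x (w y ω)) =
          (P.cond (w' y) (w' y ω)).ex (fun ω' => if E y x (w y ω') ω' then 1 else 0) := by
        rw [prE_if]
        refine Law.ex_congr _ fun ω' h' => ?_
        obtain ⟨p1, p2⟩ := P127.S.StepEx.cond_supp (P.pr_pos (w' y) hω) h'
        rw [hw y hy ω' ω p1 hω p2]
      have e2 := prE_nn (P.cond (w' y) (w' y ω)) (E y x (w y ω))
      simp only [hg]
      rw [← e1]
      by_cases a : on y x ω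
      · rw [if_pos a, if_pos (hv y hy x hx ω hω a), one_mul]
      · rw [if_neg a]
        split_ifs <;> linarith
    have t2 := tower_fn P (w' y) (fun ω => if val y x (w y ω) then (1 : ℝ) else 0)
      (fun ω' => if E y x (w y ω') ω' then 1 else 0) (fun ω ω' p p' e => by
        have e0 := hw y hy ω ω' p p' e
        simp only [e0])
    have t3 := tower_fn P (w y) (fun ω => if val y x (w y ω) then (1 : ℝ) else 0)
      (fun ω' => if E y x (w y ω') ω' then 1 else 0) (fun ω ω' _ _ e => by simp only [e])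
    rw [t2, ← t3] at t1
    refine t1.trans (le_of_eq (P.ex_congr fun ω hω => ?_))
    have e1 : prE (P.cond (w y) (w y ω)) (E y x (w y ω)) =
        (P.cond (w y) (w y ω)).ex (fun ω' => if E y x (w y ω') ω' then 1 else 0) := by
      rw [prE_if]
      refine Law.ex_congr _ fun ω' h' => ?_
      obtain ⟨_, p2⟩ := P127.S.StepEx.cond_supp (P.pr_pos (w y) hω) h'
      rw [p2]
    rw [e1]
    by_cases a : val y x (w y ω)
    · rw [if_pos a, if_pos a, one_mul]
    · rw [if_neg a, if_neg a, zero_mul]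

open Classical in
/-- `sqrt_avg`, the event depends on the validity -/
theorem sqrt_avg' {ι α W W' : Type*} (P : Law Ω) (Y : Finset ι) (X : Finset α) (w : ι → Ω → W) (w' : ι → Ω → W')
    (hw : ∀ y ∈ Y, Fn P (w y) (w' y)) (on : ι → α → Ω → Prop) (val : ι → α → W → Prop)
    (E : ∀ y x e, val y x e → Ω → Prop) {N : ℝ}
    (hN : ∀ y ∈ Y, ∀ ω, 0 < P.w ω → ((X.filter fun x => on y x ω ∧ val y x (w y ω)).card : ℝ) ≤ N) :
    ∑ y ∈ Y, ∑ x ∈ X, P.ex (fun ω => if h : on y x ω ∧ val y x (w y ω) then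
      Real.sqrt (prE (P.cond (w' y) (w' y ω)) (E y x (w y ω) h.2)) else 0) ≤
      Real.sqrt (Y.card * N) * Real.sqrt (∑ y ∈ Y, P.ex (fun ω => ∑ x ∈ X, if h : val y x (w y ω) then
        prE (P.cond (w y) (w y ω)) (E y x (w y ω) h) else 0)) := by
  have key := sqrt_avg P Y X w w' hw (fun y x ω => on y x ω ∧ val y x (w y ω)) val (fun _ _ _ _ _ _ h => h.2)
    (fun y x e ω => ∃ h : val y x e, E y x e h ω) (N := N) (fun y hy ω hω => by convert hN y hy ω hω)
  have hE : ∀ y x e (h : val y x e), (fun ω => ∃ h : val y x e, E y x e h ω) = E y x e h := by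
    intro y x e h
    funext ω
    exact propext ⟨fun ⟨_, h2⟩ => h2, fun h2 => ⟨h, h2⟩⟩
  refine le_trans (le_of_eq ?_) (key.trans (le_of_eq ?_))
  · refine Finset.sum_congr rfl fun y _ => Finset.sum_congr rfl fun x _ => P.ex_congr fun ω _ => ?_
    by_cases h : on y x ω ∧ val y x (w y ω)
    · rw [dif_pos h, if_pos h, hE y x _ h.2]
    · rw [dif_neg h, if_neg h]
  · congr 2
    refine Finset.sum_congr rfl fun y _ => P.ex_congr fun ω _ => Finset.sum_congr rfl fun x _ => ?_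
    by_cases h : val y x (w y ω)
    · rw [dif_pos h, if_pos h, hE y x _ h]
    · rw [dif_neg h, if_neg h]

open Classical in
/-- a sum over valid labels is at most the sum over the steps -/
theorem sum_inj_le {α : Type*} (X : Finset α) (v : α → Prop) (ix : ∀ x, v x → ℕ) (Z : Finset ℕ)
    (hZ : ∀ x ∈ X, ∀ h, ix x h ∈ Z) (inj : ∀ x ∈ X, ∀ x' ∈ X, ∀ h h', ix x h = ix x' h' → x = x') (F : ℕ → ℝ)
    (F0 : ∀ z, 0 ≤ F z) : ∑ x ∈ X, (if h : v x then F (ix x h) else 0) ≤ ∑ z ∈ Z, F z := by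
  set g : α → ℕ := fun x => if h : v x then ix x h else 0 with hg
  have hgv : ∀ x (h : v x), g x = ix x h := fun x h => by simp only [hg, dif_pos h]
  have e1 : ∑ x ∈ X, (if h : v x then F (ix x h) else 0) = ∑ x ∈ X.filter v, F (g x) := by
    rw [Finset.sum_filter]
    refine Finset.sum_congr rfl fun x _ => ?_
    by_cases h : v x
    · rw [dif_pos h, if_pos h, hgv x h]
    · rw [dif_neg h, if_neg h]
  have e2 : ∑ x ∈ X.filter v, F (g x) = ∑ z ∈ (X.filter v).image g, F z := by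
    rw [Finset.sum_image]
    intro x hx x' hx' e
    have h1 := Finset.mem_filter.1 (Finset.mem_coe.1 hx)
    have h2 := Finset.mem_filter.1 (Finset.mem_coe.1 hx')
    rw [hgv x h1.2, hgv x' h2.2] at e
    exact inj x h1.1 x' h2.1 h1.2 h2.2 e
  rw [e1, e2]
  refine Finset.sum_le_sum_of_subset_of_nonneg (fun z hz => ?_) fun z _ _ => F0 z
  obtain ⟨x, hx, rfl⟩ := Finset.mem_image.1 hz
  have h1 := Finset.mem_filter.1 hx
  rw [hgv x h1.2]
  exact hZ x h1.1 h1.2

end Vale.Agent.P106.U.H711
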