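import Vale.Agent.P106.U.H61.PLem
import Vale.Agent.P106.U.H449.NLe
import Vale.Agent.P106.U.H711.AvgS
import Vale.Agent.P106.U.CellE

/-!
# P106 / U / H711 / NearS : the near part of row [S] over the windows of `H712.Fam` (helper711)

* `R_Q`, `R_b`, `R_nJ` : law, cap, number of steps of the record of a good word.
* `bad_sum` : the events `Bad (640 * 648^7)` of valid labels, injective in the steps, are in `sOff`.
* **`near_row`** : `∑_b0 ∑_k ∑_a E [1_(on ∧ val) √ P(Bad | Z (k + β))] ≤ √(#bs Tc NT) √(mean of sOff)`.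
-/

set_option autoImplicit false

namespace Vale.Agent.P106.U.H711.Near

open Finset Vale.Agent.P127 Vale.Agent.P127.Stk Vale.Agent.P127.U Vale.Agent.P106.W
open Vale.Agent.P127.U.CellD (q2 Nb)
open Vale.Agent.P106.U Vale.Agent.P106.U.H565 Vale.Agent.P106.U.S3 Vale.Agent.P106.U.H449
open Vale.Agent.P106.U.Cell (Pth)
open Vale.Agent.P106.U.H101 (lc)
open Vale.Agent.P106.U.H61.PS Vale.Agent.P106.U.H61.Ext2 Vale.Agent.P106.U.H712.Fam

open Classical in
/-- number of valid labels -/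
theorem card_inj_le {α : Type*} (X : Finset α) (v : α → Prop) (ix : ∀ x, v x → ℕ) (Z : Finset ℕ)
    (hZ : ∀ x ∈ X, ∀ h, ix x h ∈ Z) (inj : ∀ x ∈ X, ∀ x' ∈ X, ∀ h h', ix x h = ix x' h' → x = x') :
    ((X.filter v).card : ℝ) ≤ Z.card := by
  have h1 := sum_inj_le X v ix Z hZ inj (fun _ => 1) fun _ => zero_le_one
  rw [Finset.sum_const, nsmul_eq_mul, mul_one] at h1
  refine le_trans (le_of_eq ?_) h1
  rw [Finset.card_filter]
  push_cast
  refine Finset.sum_congr rfl fun x _ => ?_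
  by_cases h : v x
  · rw [if_pos h, dif_pos h]
  · rw [if_neg h, dif_neg h]

section win

variable {Ω : Type} [Fintype Ω] (w : Win Ω)

/-- the law of the record -/
theorem R_Q {k : ℕ} {z : Vl} (hz : 0 < w.Q1.pr (w.Z k) z) : (w.R k z).Q = w.Q1.cond (w.Z k) z := by
  have e := w.cv_eq hz
  have h3 := w.cv_m k z
  show ((w.cv k z).erun h3).Q = _
  revert h3
  rw [e]
  intro h3
  rfl

/-- the cap of the record -/
theorem R_b {k : ℕ} {z : Vl} (hz : 0 < w.Q1.pr (w.Z k) z) : (w.R k z).m * (w.R k z).b1 = w.c.I.m * (w.b0 + k * w.s) := by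
  have e := w.cv_eq hz
  have h3 := w.cv_m k z
  show ((w.cv k z).erun h3).m * ((w.cv k z).erun h3).b1 = _
  revert h3
  rw [e]
  intro h3
  rfl

/-- number of the steps -/
theorem R_nJ (k : ℕ) (z : Vl) : (w.R k z).n + (w.nm k z).J = (w.cv k z).D.N := rfl

/-- numbers of word 1 -/
theorem cv_I (k : ℕ) (z : Vl) : (w.cv k z).I = w.c.I := by
  classical
  unfold Win.cv
  split_ifs <;> rfl

theorem steps_le (k : ℕ) (z : Vl) : (w.cv k z).D.N + 1 ≤ w.c.I.ha + 2 * w.c.I.pm.n + w.c.I.J + 4 := by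
  have h := H449.NLe.N_le (w.cv k z)
  rw [cv_I] at h
  exact h

/-- the exceptional event of a step, with the law of the record -/
noncomputable def ev (μ : ℕ) (o : Fin 7 → ℝ) (k : ℕ) (z : Vl) (i b : ℕ) : Ω → Prop :=
  (lc (w.R k z).C μ o).Bad (640 * 648 ^ 7) i b

open Classical in
/-- **the events of the valid labels** -/
theorem bad_sum {α : Type*} (X : Finset α) {k : ℕ} {z : Vl} (hz : 0 < w.Q1.pr (w.Z k) z) (v : α → Prop) (ix : ∀ a, v a → ℕ)
    (hix : ∀ a ∈ X, ∀ h, ix a h ≤ (w.cv k z).D.N) (inj : ∀ a ∈ X, ∀ a' ∈ X, ∀ h h', ix a h = ix a' h' → a = a')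
    {μ : ℕ} {o : Fin 7 → ℝ} {K' : ℝ} (hK : 640 * 648 ^ 7 ≤ K') {b bS : ℕ} (hb : b = w.c.I.m * (w.b0 + k * w.s) ∨ b = bS) :
    ∑ a ∈ X, (if h : v a then prE (w.Q1.cond (w.Z k) z) (ev w μ o k z (ix a h) b) else 0) ≤
      sOff (w.R k z) (w.nm k z) bS μ K' o := by
  refine (sum_inj_le X v ix (range ((w.R k z).n + (w.nm k z).J + 1)) (fun a ha h => ?_) inj
    (fun i => prE (w.Q1.cond (w.Z k) z) (ev w μ o k z i b)) (fun i => prE_nn _ _)).trans ?_
  · have h1 := hix a ha h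
    rw [← R_nJ] at h1
    exact Finset.mem_range.2 (by omega)
  · unfold sOff
    refine Finset.sum_le_sum fun i _ => ?_
    rw [← R_Q w hz]
    have h1 : ∀ b', prE (w.R k z).Q (ev w μ o k z i b') ≤ exc (w.R k z).Q (lc (w.R k z).C μ o) K' i b' := by
      intro b'
      unfold exc
      have h2 : prE (w.R k z).Q (ev w μ o k z i b') ≤ prE (w.R k z).Q ((lc (w.R k z).C μ o).Bad K' i b') :=
        prE_supp _ _ _ fun ω _ h => Cell.Pth.Bad_mono hK h
      have h3 := prE_nn (w.R k z).Q (H420.BadS (lc (w.R k z).C μ o) K' i b')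
      have h4 := prE_nn (w.R k z).Q (H300.BadR (lc (w.R k z).C μ o) K' i b')
      linarith
    have h5 : ∀ b', 0 ≤ exc (w.R k z).Q (lc (w.R k z).C μ o) K' i b' := fun b' => (prE_nn _ _).trans (h1 b')
    have h6 := h5 ((w.R k z).m * (w.R k z).b1)
    have h7 := h5 bS
    rcases hb with hb | hb
    · rw [hb, ← R_b w hz]
      have := h1 ((w.R k z).m * (w.R k z).b1)
      linarith
    · rw [hb]
      have := h1 bS
      linarith

end win

section row

variable {σ : S5.Cst} {cc : ℝ} {J M Md : ℕ} {p : H61.PS.Par} {X0 R0 h0 : ℕ} {Ω : Type} [Fintype Ω]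
  (x : Ctx σ cc J M Md p X0 R0 h0 Ω) (oo : Oo)

open Classical in
/-- **the near part of row [S]** -/
theorem near_row {α : Type*} (X : Finset α) (T β : ℕ) (on : ℕ × ℕ → α → Ω → Prop) (val : ℕ × ℕ → α → Vl → Prop)
    (ix : ∀ y a z, val y a z → ℕ) (hg : ∀ y ∈ x.bs ×ˢ range T, ∀ a ∈ X, ∀ z, val y a z → Win.good y.2 z)
    (hix : ∀ y ∈ x.bs ×ˢ range T, ∀ a ∈ X, ∀ z (h : val y a z), 0 < x.Q1.pr ((x.win oo y.1).Z y.2) z →
      ix y a z h ≤ ((x.win oo y.1).cv y.2 z).D.N)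
    (inj : ∀ y ∈ x.bs ×ˢ range T, ∀ z, 0 < x.Q1.pr ((x.win oo y.1).Z y.2) z → ∀ a ∈ X, ∀ a' ∈ X, ∀ h h',
      ix y a z h = ix y a' z h' → a = a')
    {μ : ℕ} {o : Fin 7 → ℝ} {K' : ℝ} (hK : 640 * 648 ^ 7 ≤ K') (b bS : Win Ω → ℕ → ℕ)
    (hb : (∀ w k, b w k = w.c.I.m * (w.b0 + k * w.s)) ∨ ∀ w k, b w k = bS w k) :
    ∑ b0 ∈ x.bs, ∑ k ∈ range T, ∑ a ∈ X, x.Q1.ex (fun ω =>
      if h : on (b0, k) a ω ∧ val (b0, k) a ((x.win oo b0).Z k ω) then
        Real.sqrt (prE (x.Q1.cond ((x.win oo b0).Z (k + β)) ((x.win oo b0).Z (k + β) ω))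
          (ev (x.win oo b0) μ o k ((x.win oo b0).Z k ω) (ix (b0, k) a _ h.2) (b (x.win oo b0) k))) else 0) ≤
      Real.sqrt (x.bs.card * T * (x.c.I.ha + 2 * x.c.I.pm.n + x.c.I.J + 4 : ℕ)) *
        Real.sqrt (x.mean oo T (fun w k z => sOff (w.R k z) (w.nm k z) (bS w k) μ K' o)) := by
  have key := sqrt_avg' x.Q1 (x.bs ×ˢ range T) X (fun y => (x.win oo y.1).Z y.2) (fun y => (x.win oo y.1).Z (y.2 + β))
    (fun y _ ω ω' _ _ e => (x.win oo y.1).Z_nest (Nat.le_add_right _ _) e) on val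
    (fun y a z h => ev (x.win oo y.1) μ o y.2 z (ix y a z h) (b (x.win oo y.1) y.2))
    (N := ((x.c.I.ha + 2 * x.c.I.pm.n + x.c.I.J + 4 : ℕ) : ℝ)) (fun y hy ω hω => ?_)
  · rw [Finset.sum_product, Finset.card_product, Finset.card_range, Nat.cast_mul, Finset.sum_product] at key
    refine key.trans (mul_le_mul_of_nonneg_left (Real.sqrt_le_sqrt ?_) (Real.sqrt_nonneg _))
    unfold Ctx.mean Win.av
    refine Finset.sum_le_sum fun b0 hb0 => Finset.sum_le_sum fun k hk => ?_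
    refine x.Q1.ex_mono fun ω hω => ?_
    have hy : (b0, k) ∈ x.bs ×ˢ range T := Finset.mem_product.2 ⟨hb0, hk⟩
    have hz : 0 < x.Q1.pr ((x.win oo b0).Z k) ((x.win oo b0).Z k ω) := x.Q1.pr_pos _ hω
    have hz' : 0 < (x.win oo b0).Q1.pr ((x.win oo b0).Z k) ((x.win oo b0).Z k ω) := hz
    by_cases hgd : Win.good k ((x.win oo b0).Z k ω)
    · rw [if_pos hgd]
      exact bad_sum (x.win oo b0) X hz' (fun a => val (b0, k) a ((x.win oo b0).Z k ω))
        (fun a h => ix (b0, k) a ((x.win oo b0).Z k ω) h) (fun a ha h => hix (b0, k) hy a ha _ h hz)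
        (fun a ha a' ha' h h' e => inj (b0, k) hy _ hz a ha a' ha' h h' e) hK
        (hb.imp (fun h => h _ _) (fun h => h _ _))
    · rw [if_neg hgd]
      refine le_of_eq (Finset.sum_eq_zero fun a ha => dif_neg fun h => hgd (hg (b0, k) hy a ha _ h))
  · have hz : 0 < x.Q1.pr ((x.win oo y.1).Z y.2) ((x.win oo y.1).Z y.2 ω) := x.Q1.pr_pos _ hω
    have h1 := card_inj_le X (fun a => on y a ω ∧ val y a ((x.win oo y.1).Z y.2 ω)) (fun a h => ix y a _ h.2)
      (range (((x.win oo y.1).cv y.2 ((x.win oo y.1).Z y.2 ω)).D.N + 1))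
      (fun a ha h => Finset.mem_range.2 (Nat.lt_succ_of_le (hix y hy a ha _ h.2 hz)))
      (fun a ha a' ha' h h' e => inj y hy _ hz a ha a' ha' h.2 h'.2 e)
    rw [Finset.card_range] at h1
    have h2 := steps_le (x.win oo y.1) y.2 ((x.win oo y.1).Z y.2 ω)
    refine le_trans (le_of_eq ?_) (h1.trans (by exact_mod_cast h2))
    congr!

end row

end Vale.Agent.P106.U.H711.Near
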