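import Vale.Agent.P106.U.H661.SDef
import Vale.Agent.P106.U.H711.NearS

/-!
# P106 / U / H711 / FarW : the far part of row [S] over the windows (helper711)

* `mem_ZS` : the index `J a - r` of a label is in `SD.ZS`.
* **`far_row`** : `∑_b0 ∑_k ∑_a E [1_(on ∧ val) farC (.. | Z (k + 9 L))] ≤ ∑_b0 ∑_k E frS`.
-/

set_option autoImplicit false

namespace Vale.Agent.P106.U.H711.Near

open Finset Vale.Agent.P127 Vale.Agent.P127.Stk Vale.Agent.P127.U Vale.Agent.P106.W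
open Vale.Agent.P106.U Vale.Agent.P106.U.H565 Vale.Agent.P106.U.S3 Vale.Agent.P106.U.H449
open Vale.Agent.P106.U.H823.PathNum
open Vale.Agent.P106.U.H61.PS Vale.Agent.P106.U.H712.Fam
open Vale.Agent.P106.U.H661.SPairB (farC farC_nonneg)
open Vale.Agent.P106.U.H661.SD

/-- a step at most `B` before the end of its level -/
theorem mem_ZS (D : PN) {B z : ℕ} (h1 : z ≤ D.N) (h2 : D.L.J (D.L.lev z) ≤ z + B) : z ∈ ZS D B :=
  Finset.mem_filter.2 ⟨Finset.mem_range.2 (Nat.lt_succ_of_le h1), h2⟩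

/-- a step with an `a`-step of a later level at most `B` steps after it -/
theorem mem_ZS' (D : PN) {B z d : ℕ} (h1 : z ≤ D.N) (h2 : D.L.J (D.L.lev z + d) ≤ z + B) : z ∈ ZS D B :=
  mem_ZS D h1 ((D.L.J_mono.monotone (Nat.le_add_right _ _)).trans h2)

section row

variable {σ : S5.Cst} {cc : ℝ} {J M Md : ℕ} {p : H61.PS.Par} {X0 R0 h0 : ℕ} {Ω : Type} [Fintype Ω]
  (x : Ctx σ cc J M Md p X0 R0 h0 Ω) (oo : Oo)

open Classical in
/-- **the far part of row [S]** -/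
theorem far_row {α : Type*} (X : Finset α) (T : ℕ) (on : ℕ × ℕ → α → Ω → Prop) (val : ℕ × ℕ → α → Vl → Prop)
    (ix : ∀ y a z, val y a z → ℕ) (hg : ∀ y ∈ x.bs ×ˢ range T, ∀ a ∈ X, ∀ z, val y a z → Win.good y.2 z)
    (hix : ∀ y ∈ x.bs ×ˢ range T, ∀ a ∈ X, ∀ z (h : val y a z), 0 < x.Q1.pr ((x.win oo y.1).Z y.2) z →
      ix y a z h ∈ ZS ((x.win oo y.1).cv y.2 z).D p.B)
    (inj : ∀ y ∈ x.bs ×ˢ range T, ∀ z, 0 < x.Q1.pr ((x.win oo y.1).Z y.2) z → ∀ a ∈ X, ∀ a' ∈ X, ∀ h h',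
      ix y a z h = ix y a' z h' → a = a') :
    ∑ b0 ∈ x.bs, ∑ k ∈ range T, ∑ a ∈ X, x.Q1.ex (fun ω =>
      if h : on (b0, k) a ω ∧ val (b0, k) a ((x.win oo b0).Z k ω) then
        farC (x.Q1.cond ((x.win oo b0).Z (k + βr p)) ((x.win oo b0).Z (k + βr p) ω))
          ((x.win oo b0).cv k ((x.win oo b0).Z k ω)).inp 6 648 x.c.I.m x.c.I.J p.g (NT x.c)
          ((x.win oo b0).cv k ((x.win oo b0).Z k ω)).D.li (ix (b0, k) a _ h.2) else 0) ≤
      ∑ b0 ∈ x.bs, ∑ k ∈ range T, x.Q1.ex (frS (x.win oo b0) p.fp (βr p) k) := by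
  refine Finset.sum_le_sum fun b0 hb0 => Finset.sum_le_sum fun k hk => ?_
  rw [← ex_sum]
  refine x.Q1.ex_mono fun ω hω => ?_
  have hy : (b0, k) ∈ x.bs ×ˢ range T := Finset.mem_product.2 ⟨hb0, hk⟩
  have hz : 0 < x.Q1.pr ((x.win oo b0).Z k) ((x.win oo b0).Z k ω) := x.Q1.pr_pos _ hω
  unfold frS
  by_cases hgd : Win.good k ((x.win oo b0).Z k ω)
  · rw [if_pos hgd]
    have h1 := sum_inj_le X (fun a => on (b0, k) a ω ∧ val (b0, k) a ((x.win oo b0).Z k ω))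
      (fun a h => ix (b0, k) a _ h.2) (ZS ((x.win oo b0).cv k ((x.win oo b0).Z k ω)).D p.B)
      (fun a ha h => hix (b0, k) hy a ha _ h.2 hz)
      (fun a ha a' ha' h h' e => inj (b0, k) hy _ hz a ha a' ha' h.2 h'.2 e)
      (fun z => farC (x.Q1.cond ((x.win oo b0).Z (k + βr p)) ((x.win oo b0).Z (k + βr p) ω))
          ((x.win oo b0).cv k ((x.win oo b0).Z k ω)).inp 6 648 x.c.I.m x.c.I.J p.g (NT x.c)
          ((x.win oo b0).cv k ((x.win oo b0).Z k ω)).D.li z)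
      (fun z => farC_nonneg _ _ _ _ _ _ _ _ _ _)
    refine le_trans (le_of_eq ?_) h1
    refine Finset.sum_congr rfl fun a _ => ?_
    congr!
  · rw [if_neg hgd]
    refine le_of_eq (Finset.sum_eq_zero fun a ha => dif_neg fun h => hgd (hg (b0, k) hy a ha _ h.2))

end row

end Vale.Agent.P106.U.H711.Near
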