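import Vale.Agent.P106.U.S3.F2
import Vale.Agent.P106.U.H711.Arr

/-!
# P106 / U / H711 / ArrR : the arrays of a run (helper711)

`arr_run` : `Arr` for the levels `lv R` and the precision `R.C.rk` of a run, up to the stop `n`; `a_lv` : `a i = m * lv i`.
-/

set_option autoImplicit false

namespace Vale.Agent.P106.U.H711

open Finset Vale.Agent.P127 Vale.Agent.P127.Stk
open Vale.Agent.P106.U.S3

variable {Ω : Type} [Fintype Ω] {τ υ : Type} {R : Run Ω τ υ} {p : Run.Num}

/-- the levels are multiples of `m` -/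
theorem a_lv (h : R.Path p) {i : ℕ} (hi : i ≤ R.n + p.J) : R.C.a i = R.m * lv R i := by
  have key : ∀ i ≤ R.n + p.J, R.m ∣ R.C.a i := by
    intro i
    induction i with
    | zero =>
      intro _
      rw [h.a0]
      exact dvd_zero _
    | succ i ih =>
      intro hi
      have h1 := ih (by omega)
      rcases h.stp i (by omega) with ⟨a, _, _⟩ | ⟨a, _, _⟩ | ⟨a, _, _⟩
      · rw [a]
        exact dvd_add h1 (dvd_refl _)
      · rw [a]
        exact h1
      · rw [a]
        exact h1
  exact (Nat.mul_div_cancel' (key i hi)).symm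

/-- the precision grows by multiples of `m` -/
theorem rk_dvd (h : R.Path p) {i j : ℕ} (hij : i ≤ j) (hj : j ≤ R.n + p.J) : ∃ t, R.C.rk j = R.C.rk i + R.m * t := by
  induction j, hij using Nat.le_induction with
  | base => exact ⟨0, by simp⟩
  | succ j hij ih =>
    obtain ⟨t, ht⟩ := ih (by omega)
    rcases h.stp j (by omega) with ⟨_, _, a⟩ | ⟨_, _, a⟩ | ⟨_, _, a⟩
    · exact ⟨t, by rw [a, ht]⟩
    · exact ⟨t, by rw [a, ht]⟩
    · exact ⟨t + 1, by rw [a, ht]; ring⟩

/-- **the arrays of a run** -/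
theorem arr_run (h : R.Path p) : Arr R.m p.J R.n (lv R) R.C.rk where
  J1 := h.J1
  mv := fun _ _ hij => Nat.div_le_div_right (R.C.ha hij)
  sv := fun i hin => by
    have hi : i < R.n + p.J := by omega
    have h1 := a_lv h hi.le
    have h2 := a_lv h (i := i + 1) hi
    have hm : 0 < R.m := h.m1
    have h3 : R.C.a (i + 1) ≤ R.C.a i + R.m := by
      rcases h.stp i hi with ⟨a, _, _⟩ | ⟨a, _, _⟩ | ⟨a, _, _⟩ <;> omega
    have h4 : R.m * lv R (i + 1) ≤ R.m * (lv R i + 1) := by
      rw [← h2, Nat.mul_add, ← h1, Nat.mul_one]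
      exact h3
    exact Nat.le_of_mul_le_mul_left h4 hm
  mr := R.C.hk
  adv := fun i j hij hj hv => by
    have h1 := a_lv h (i := i) (by omega)
    have h2 := a_lv h (i := j) (by omega)
    have h3 := h.advK i j hij hj (by
      rw [h1, h2, Nat.mul_comm p.J, ← Nat.mul_add]
      exact Nat.mul_le_mul_left _ hv)
    obtain ⟨t, ht⟩ := rk_dvd h hij (by omega)
    rw [ht] at h3 ⊢
    have : 1 ≤ t := by
      rcases Nat.eq_zero_or_pos t with h0 | h0
      · rw [h0] at h3
        simp at h3
      · exact h0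
    have := Nat.mul_le_mul_left R.m this
    omega

end Vale.Agent.P106.U.H711
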