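import Vale.Agent.P106.U.H661.SPair
import Vale.Agent.P106.U.H711.Far

/-!
# P106 / U / H711 / FarS : the far records of row [S] (helper711)

* `qe m J v z j = m ((v z - v j) / (4 J))` : exponent of a far pair; `C0 K Kf` : relative radius.
* `far_of` : 661's `Far` for every earlier step `j` from `Hy K` of the first input, `Arr` and equality of the step `k`.
* `rad_le` : 661's radii are `≤ C0 2^-2q` (relative).
* `hN_cell` : the hypothesis on the position from the cell.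
* **`ns_far`** : the sum over the far records in 661's `ns1, ns3` is `≤ cR M` times the cost of `exists_far_sum`.
-/

set_option autoImplicit false

namespace Vale.Agent.P106.U.H711

open Finset Vale.Agent.P127 Vale.Agent.P127.Stk
open Vale.Agent.P127.U.CellD (q2 rd Nb q2_pos q2_le q2_add rd_err fl1_fl1)
open Vale.Agent.P106.U.Cell (Pth Ray Fu near_of_fl)
open Vale.Agent.P106.U.H101 (lc)
open Vale.Agent.P106.U.H101.TN
open Vale.Agent.P106.U.S3 (LTh LDk)
open Vale.Agent.P106.U.S3.PthW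
open Vale.Agent.P106.U.H661.SPair (Far rad cR cR_nonneg prE_le)
open Vale.Agent.P106.U.H661.Ext

/-- exponent of a far pair -/
def qe (m J : ℕ) (v : ℕ → ℕ) (z j : ℕ) : ℕ := m * ((v z - v j) / (4 * J))

/-- relative radius -/
def C0 (K Kf : ℝ) : ℝ := 4 * K * Kf + 4 + 2 * Kf

section

variable {m J n : ℕ} {v rk : ℕ → ℕ}

theorem two_qe (hJ : 1 ≤ J) (z j : ℕ) : 2 * qe m J v z j ≤ m * ((v z - v j) / (2 * J)) := by
  unfold qe
  set D := v z - v j
  have h1 : 2 * (D / (4 * J)) ≤ D / (2 * J) := by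
    rw [Nat.le_div_iff_mul_le (by omega)]
    have h2 := Nat.div_mul_le_self D (4 * J)
    calc 2 * (D / (4 * J)) * (2 * J) = D / (4 * J) * (4 * J) := by ring
      _ ≤ D := h2
  calc 2 * (m * (D / (4 * J))) = m * (2 * (D / (4 * J))) := by ring
    _ ≤ m * (D / (2 * J)) := Nat.mul_le_mul_left _ h1

theorem Arr.rk_gain (H : Arr m J n v rk) {j z : ℕ} (hjz : j ≤ z) (hz : z ≤ n) : rk j + 2 * qe m J v z j ≤ rk z := by
  have h1 := two_qe (m := m) (v := v) H.J1 z j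
  have h2 : 2 * J * ((v z - v j) / (2 * J)) ≤ v z - v j := Nat.mul_div_le _ _
  have h3 : v j ≤ v z := H.mv hjz
  have h4 : J * ((v z - v j) / (2 * J)) ≤ 2 * J * ((v z - v j) / (2 * J)) := Nat.mul_le_mul_right _ (by omega)
  have h5 := H.gain ((v z - v j) / (2 * J)) hjz hz (by omega)
  omega

theorem Arr.a_gain (H : Arr m J n v rk) {j z : ℕ} (hjz : j ≤ z) : m * v j + 2 * qe m J v z j ≤ m * v z := by
  have h1 := two_qe (m := m) (v := v) H.J1 z j
  have h3 : v j ≤ v z := H.mv hjz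
  have h2 : (v z - v j) / (2 * J) ≤ v z - v j := Nat.div_le_self _ _
  have h4 := Nat.mul_le_mul_left m h2
  have h5 : m * v j + m * (v z - v j) = m * v z := by
    rw [← Nat.mul_add]
    congr 1
    omega
  omega

/-- slopes of a far pair -/
theorem Arr.rho2 (H : Arr m J n v rk) {K : ℝ} {g : ℕ → ℝ}
    (hg : ∀ i j, i ≤ j → j ≤ n → |g j - g i| * q2 (m * v j) ≤ K * q2 (rk i)) (hK : 0 ≤ K) {j z : ℕ} (hjz : j ≤ z)
    (hz : z ≤ n) :
    |g z - g j| * q2 (m * v z) ≤ 2 * K * (q2 (2 * qe m J v z j) * q2 (rk j)) := by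
  refine (H.rho hg hK hjz hz).trans (mul_le_mul_of_nonneg_left ?_ (by linarith))
  rw [← q2_add]
  refine q2_le ?_
  have := two_qe (m := m) (v := v) H.J1 z j
  omega

end

section far

variable {Ω : Type} [Fintype Ω] {T : Type} {D1 D2 : Inp Ω} {m J n k h : ℕ} {v : ℕ → ℕ} {K Kf : ℝ}

/-- **the far records**, in 661's form -/
theorem far_of (P : Law Ω) (hS : SameI D1 D2) (hl : D1.l = D2.l) {Y : Ω → T} (H : Arr m J n v D1.rk)
    (ha : ∀ i ≤ n, D1.a i = m * v i) (hy : ∀ ω, 0 < P.w ω → D1.Hy K h ω) (hKf : 7 * K ≤ Kf) (hK : 1 ≤ K)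
    (hka : D1.a k = D2.a k) (hkr : D1.rk k = D2.rk k) (hkg : ∀ ω, 0 < P.w ω → D1.gA k ω = D2.gA k ω)
    (hkn : k ≤ n) (hT : Fn P (D2.T k) Y)
    (hN : ∀ ω ω', 0 < P.w ω → 0 < P.w ω' → Y ω = Y ω' →
      |(D2.l ω').N (D2.s k ω') - (D2.l ω).N (D2.s k ω)| ≤ q2 (D2.a k)) {j : ℕ} (hj : j ≤ k) (hg : Fn P (D1.gA j) Y) :
    Far P D1 D2 Y Kf (2 * K * (q2 (2 * qe m J v k j) * q2 (D1.rk j))) ⌈C0 K Kf + 2 + Kf⌉₊ k j where
  K0 := by linarith
  a := by
    rw [← hka]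
    exact D1.ha hj
  T := hT
  g := hg
  d := fun ω hω => by
    have h1 := H.rho2 (K := K) (g := fun i => D1.gA i ω) (fun i j' hij hj' => by
      have := (hy ω hω).gg i j' hij
      rw [ha j' hj'] at this
      exact this) (by linarith) hj hkn
    rw [← hkg ω hω, ← hka, ha k hkn]
    exact h1
  t := fun ω hω => by
    have h1 := (hy ω hω).tm k
    have e : D1.s k ω = D2.s k ω := by unfold Inp.s; rw [hka, hS.t]
    rw [← hS.tW, ← e, ← hka]
    refine h1.trans (mul_le_mul_of_nonneg_right (by linarith) (q2_pos _).le)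
  N := fun ω ω' hω hω' e => by
    have h1 := (hy ω hω).Nc
    have h2 := (hy ω' hω').Nc
    have h3 := hN ω ω' hω hω' e
    have t1 := (hy ω hω).tm k
    have t2 := (hy ω' hω').tm k
    have w1 := (hy ω hω).w1
    have w2 := (hy ω' hω').w1
    have q0 := q2_pos (D2.a k)
    have e1 : ∀ ω, D1.s k ω = D2.s k ω := fun ω => by unfold Inp.s; rw [hka, hS.t]
    have hh : q2 h ≤ q2 (D2.a k) := by
      rw [← hka]
      exact q2_le ((hy ω hω).lev k)
    rw [hl, hS.tW, hS.Nc] at h1 h2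
    rw [hS.tW, e1, hka] at t1 t2
    rw [hl] at w1 w2
    have x1 : ∀ ω, (D2.l ω).N (D2.tW ω) - (D2.l ω).N (D2.s k ω) = (D2.tW ω - D2.s k ω) * (D2.l ω).w := fun ω => by
      unfold Ray.N; ring
    have y1 : |(D2.tW ω - D2.s k ω) * (D2.l ω).w| ≤ 2 * K * q2 (D2.a k) := by
      rw [abs_mul]
      have := mul_le_mul t1 w1 (abs_nonneg _) (mul_nonneg (by linarith) q0.le)
      linarith
    have y2 : |(D2.tW ω' - D2.s k ω') * (D2.l ω').w| ≤ 2 * K * q2 (D2.a k) := by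
      rw [abs_mul]
      have := mul_le_mul t2 w2 (abs_nonneg _) (mul_nonneg (by linarith) q0.le)
      linarith
    have z1 : K * q2 h ≤ K * q2 (D2.a k) := mul_le_mul_of_nonneg_left hh (by linarith)
    have e2 : D2.Nc ω' - D2.Nc ω = -((D2.l ω').N (D2.tW ω') - D2.Nc ω') + ((D2.l ω).N (D2.tW ω) - D2.Nc ω) +
        ((D2.l ω').N (D2.s k ω') - (D2.l ω).N (D2.s k ω)) + (D2.tW ω' - D2.s k ω') * (D2.l ω').w -
        (D2.tW ω - D2.s k ω) * (D2.l ω).w := by
      rw [← x1 ω, ← x1 ω']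
      ring
    rw [e2]
    have hb : (7 * K) * q2 (D2.a k) ≤ Kf * q2 (D2.a k) := mul_le_mul_of_nonneg_right hKf q0.le
    have hc : q2 (D2.a k) ≤ K * q2 (D2.a k) := by nlinarith
    rw [abs_le] at h1 h2 h3 y1 y2 ⊢
    constructor <;> linarith [h1.1, h1.2, h2.1, h2.2, h3.1, h3.2, y1.1, y1.2, y2.1, y2.2]
  M := by
    have q1 := q2_pos (D1.rk j)
    have q3 := q2_pos (2 * qe m J v k j)
    have g1 := H.rk_gain hj hkn
    have r1 : q2 (D2.rk k) ≤ q2 (D1.rk j) := by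
      rw [← hkr]
      exact q2_le (by omega)
    have r2 : q2 (2 * qe m J v k j) ≤ 1 := Inp.q2_one
    have hKf0 : 0 ≤ Kf := by linarith
    have hKK : 0 ≤ K * Kf := mul_nonneg (by linarith) hKf0
    have h1 := Nat.le_ceil (C0 K Kf + 2 + Kf)
    have h2 : (C0 K Kf + 2 + Kf) * q2 (D1.rk j) ≤ (⌈C0 K Kf + 2 + Kf⌉₊ : ℝ) * q2 (D1.rk j) :=
      mul_le_mul_of_nonneg_right h1 q1.le
    refine le_trans ?_ h2
    unfold C0
    have a1 : Kf * (2 * (2 * K * (q2 (2 * qe m J v k j) * q2 (D1.rk j)))) ≤ 4 * K * Kf * q2 (D1.rk j) := by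
      have : q2 (2 * qe m J v k j) * q2 (D1.rk j) ≤ 1 * q2 (D1.rk j) := mul_le_mul_of_nonneg_right r2 q1.le
      nlinarith
    have a2 : (4 + 2 * Kf) * q2 (D2.rk k) ≤ (4 + 2 * Kf) * q2 (D1.rk j) :=
      mul_le_mul_of_nonneg_left r1 (by linarith)
    linarith

omit [Fintype Ω] in
/-- the radii -/
theorem rad_le (H : Arr m J n v D1.rk) (ha : ∀ i ≤ n, D1.a i = m * v i) (hKf : 0 ≤ Kf) (hK : 0 ≤ K)
    (hka : D1.a k = D2.a k) (hkr : D1.rk k = D2.rk k) (hkn : k ≤ n) {j : ℕ} (hj : j ≤ k) :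
    rad D2 Kf (2 * K * (q2 (2 * qe m J v k j) * q2 (D1.rk j))) k ≤ C0 K Kf * q2 (2 * qe m J v k j) * q2 (D1.rk j) ∧
      Kf * q2 (D2.a k) ≤ C0 K Kf * q2 (2 * qe m J v k j) * q2 (D1.a j) := by
  have g1 := H.rk_gain hj hkn
  have g2 := H.a_gain hj
  have r1 : q2 (D2.rk k) ≤ q2 (2 * qe m J v k j) * q2 (D1.rk j) := by
    rw [← hkr, ← q2_add]
    exact q2_le (by omega)
  have r2 : q2 (D2.a k) ≤ q2 (2 * qe m J v k j) * q2 (D1.a j) := by
    rw [← hka, ← q2_add, ha k hkn, ha j (hj.trans hkn)]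
    exact q2_le (by omega)
  have hKK : 0 ≤ K * Kf := mul_nonneg hK hKf
  constructor
  · unfold rad C0
    have a2 : (4 + 2 * Kf) * q2 (D2.rk k) ≤ (4 + 2 * Kf) * (q2 (2 * qe m J v k j) * q2 (D1.rk j)) :=
      mul_le_mul_of_nonneg_left r1 (by linarith)
    linarith
  · have q3 : 0 ≤ q2 (2 * qe m J v k j) * q2 (D1.a j) := mul_nonneg (q2_pos _).le (q2_pos _).le
    have a1 := mul_le_mul_of_nonneg_left r2 hKf
    have a2 : Kf * (q2 (2 * qe m J v k j) * q2 (D1.a j)) ≤ C0 K Kf * (q2 (2 * qe m J v k j) * q2 (D1.a j)) := by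
      refine mul_le_mul_of_nonneg_right ?_ q3
      unfold C0
      linarith
    linarith

/-- **the far part of 661's rows in terms of the cost of `exists_far_sum`** : `S` = the far steps -/
theorem ns_far (P : Law Ω) (H : Arr m J n v D1.rk) (ha : ∀ i ≤ n, D1.a i = m * v i) (hKf : 0 ≤ Kf) (hK : 0 ≤ K)
    (hka : D1.a k = D2.a k) (hkr : D1.rk k = D2.rk k) (hkn : k ≤ n) (M g j0 N : ℕ) (hj0 : j0 ≤ k + 1)
    (hfar : ∀ j < j0, v j + g ≤ v k) (hN : k < N) :
    ∑ j ∈ range j0, cR M * Real.sqrt (prE P (BadT D1 j (rad D2 Kf (2 * K * (q2 (2 * qe m J v k j) * q2 (D1.rk j))) k)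
        (Kf * q2 (D2.a k)))) ≤
      cR M * ∑ j ∈ (range N).filter (fun j => v j + g ≤ v k), Real.sqrt (prE P (BadT D1 j
        (C0 K Kf * q2 (2 * (m * ((v k - v j) / (4 * J)))) * q2 (D1.rk j))
        (C0 K Kf * q2 (2 * (m * ((v k - v j) / (4 * J)))) * q2 (D1.a j)))) := by
  rw [Finset.mul_sum]
  refine (Finset.sum_le_sum fun j hj => ?_).trans (Finset.sum_le_sum_of_subset_of_nonneg (s := range j0)
    (f := fun j => cR M * Real.sqrt (prE P (BadT D1 j
        (C0 K Kf * q2 (2 * (m * ((v k - v j) / (4 * J)))) * q2 (D1.rk j))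
        (C0 K Kf * q2 (2 * (m * ((v k - v j) / (4 * J)))) * q2 (D1.a j))))) (fun j hj => ?_)
    fun j _ _ => mul_nonneg (cR_nonneg M) (Real.sqrt_nonneg _))
  · have hjk : j ≤ k := by
      have := Finset.mem_range.1 hj
      omega
    obtain ⟨b1, b2⟩ := rad_le (K := K) (Kf := Kf) H ha hKf hK hka hkr hkn hjk
    refine mul_le_mul_of_nonneg_left (Real.sqrt_le_sqrt (prE_le P fun ω _ hB => ?_)) (cR_nonneg M)
    exact BadT_mono b1 b2 hB
  · rw [Finset.mem_filter, Finset.mem_range]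
    have := Finset.mem_range.1 hj
    exact ⟨by omega, hfar j this⟩

end far

/-- the hypothesis on the position from the cell -/
theorem hN_cell {Ω τ : Type} (C : Pth Ω τ) {k b : ℕ} (hb : C.μ ≤ b) {ω ω' : Ω} (e : C.cell k b ω = C.cell k b ω') :
    |(C.l ω').N (C.s k ω') - (C.l ω).N (C.s k ω)| ≤ q2 (C.a k) := by
  have h1 := near_of_fl ((Pth.cell_iff.1 e).2.2 2)
  rw [add_sub_add_right_eq_sub] at h1
  have h2 : |(C.l ω').N (C.s k ω') - (C.l ω).N (C.s k ω)| ≤ q2 (C.a k + b - C.μ) := h1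
  exact h2.trans (q2_le (by omega))

end Vale.Agent.P106.U.H711
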