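import Vale.Agent.P106.U.H661.SLx
import Vale.Agent.P106.U.H711.FarW

/-!
# P106 / U / H711 / LabW : the labels of row [S], near and far part (helper711)

* `V0.inj` : the step `J a - r` of a valid label determines the label.
* **`near_c`, `near_S`** : `∑_b0 ∑_k ∑_a ∑_r E bd ≤ √(#bs T NT) √(mean sOff)`, both caps.
* **`far_lab`** : `∑_b0 ∑_k ∑_a ∑_r E fr ≤ ∑_b0 ∑_k E frS`.
-/

set_option autoImplicit false

namespace Vale.Agent.P106.U.H661.SD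

open Finset Vale.Agent.P127 Vale.Agent.P127.Stk Vale.Agent.P127.U Vale.Agent.P106.W
open Vale.Agent.P106.U Vale.Agent.P106.U.H449 Vale.Agent.P106.U.S3
open Vale.Agent.P106.U.H565 Vale.Agent.P106.U.H823.NumW Vale.Agent.P106.U.H823.PathNum
open Vale.Agent.P106.U.H61.PS Vale.Agent.P106.U.H61.Reg Vale.Agent.P106.U.H61.Ext2
open Vale.Agent.P106.U.H661.SPairB Vale.Agent.P106.U.H661.SLab Vale.Agent.P106.U.H661.Age
open Vale.Agent.P106.U.H712.Fam (Win Vl)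
open Vale.Agent.P106.U.H711.Near

/-- the step determines the label -/
theorem V0.inj {D : PN} {B g a r d a' r' : ℕ} (h : V0 D B g a r d) (h' : V0 D B g a' r' d)
    (e : D.L.J a - r = D.L.J a' - r') : a = a' ∧ r = r' := by
  have e1 := lev_sub D.L h.beg
  have e2 := lev_sub D.L h'.beg
  rw [e, e2] at e1
  subst e1
  have h1 := h.beg
  have h2 := h'.beg
  exact ⟨rfl, by omega⟩

/-- the step is in `ZS` -/
theorem V0.mem {D : PN} {B g a r d : ℕ} (h : V0 D B g a r d) : D.L.J a - r ∈ ZS D B := by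
  have h1 := h.n
  have h2 : D.n ≤ D.N := Nat.le_add_right _ _
  refine mem_ZS D (by omega) ?_
  rw [lev_sub D.L h.beg]
  have := h.rB
  omega

section row

variable {σ : S5.Cst} {cc : ℝ} {J M Md : ℕ} {p : H61.PS.Par} {X0 R0 h0 : ℕ} {Ω : Type} [Fintype Ω]
  (x : Ctx σ cc J M Md p X0 R0 h0 Ω) (oo : Oo)

/-- the labels -/
noncomputable def lbs (x : Ctx σ cc J M Md p X0 R0 h0 Ω) : Finset (ℕ × ℕ) := range (x.c.I.ha + 1) ×ˢ range (p.B + 1)

theorem v0_cv {oo : Oo} {b0 k a r d : ℕ} {z : Vl} (hz : 0 < x.Q1.pr (x.w b0 k) z) (h : vd x oo b0 a r d k z) :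
    V0 ((x.win oo b0).cv k z).D p.B p.g a r d := by
  rw [show (x.win oo b0).cv k z = x.C oo b0 k z hz from (x.win oo b0).cv_eq hz]
  exact h.choose_spec

theorem far_lab (μ : ℕ) (o : Fin 7 → ℝ) (d T : ℕ) :
    ∑ b0 ∈ x.bs, ∑ k ∈ range T, ∑ a ∈ range (x.c.I.ha + 1), ∑ r ∈ range (p.B + 1),
      x.Q1.ex ((lD x oo b0 μ o a r d).fr x.Q1 (kp x b0 a d) (x.w b0) 6 648 x.c.I.m x.c.I.J p.g (NT x.c) p.k1 (βr p) k) ≤
      ∑ b0 ∈ x.bs, ∑ k ∈ range T, x.Q1.ex (frS (x.win oo b0) p.fp (βr p) k) := by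
  classical
  have key := far_row x oo (lbs x) T (fun y l ω => p.k1 ≤ ag (kp x y.1 l.1 d) y.2 ω ∧
      kp x y.1 l.1 d (y.2 + βr p) ω = kp x y.1 l.1 d y.2 ω) (fun y l z => vd x oo y.1 l.1 l.2 d y.2 z)
    (fun y l z _ => ((x.win oo y.1).cv y.2 z).D.L.J l.1 - l.2)
    (fun y _ l _ z h => h.choose.bits)
    (fun y _ l _ z h hz => (v0_cv x hz h).mem)
    (fun y _ z hz l _ l' _ h h' e => Prod.ext ((v0_cv x hz h).inj (v0_cv x hz h') e).1
      ((v0_cv x hz h).inj (v0_cv x hz h') e).2)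
  refine le_trans (le_of_eq ?_) key
  refine Finset.sum_congr rfl fun b0 _ => Finset.sum_congr rfl fun k _ => ?_
  unfold lbs
  rw [Finset.sum_product]
  refine Finset.sum_congr rfl fun a _ => Finset.sum_congr rfl fun r _ => ?_
  refine x.Q1.ex_congr fun ω hω => ?_
  have hz : 0 < x.Q1.pr (x.w b0 k) (x.w b0 k ω) := x.Q1.pr_pos _ hω
  have hcv : (x.win oo b0).cv k (x.w b0 k ω) = x.C oo b0 k (x.w b0 k ω) hz := (x.win oo b0).cv_eq hz
  unfold LD.fr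
  by_cases h : (lD x oo b0 μ o a r d).on (kp x b0 a d) (x.w b0) p.k1 (βr p) k ω
  · rw [dif_pos h]
    refine Eq.trans ?_ (dif_pos (show (p.k1 ≤ ag (kp x b0 a d) k ω ∧ kp x b0 a d (k + βr p) ω = kp x b0 a d k ω) ∧
      vd x oo b0 a r d k (x.w b0 k ω) from h)).symm
    show _ = farC (x.Q1.cond (x.w b0 (k + βr p)) (x.w b0 (k + βr p) ω)) ((x.win oo b0).cv k (x.w b0 k ω)).inp 6 648 x.c.I.m
      x.c.I.J p.g (NT x.c) ((x.win oo b0).cv k (x.w b0 k ω)).D.li (((x.win oo b0).cv k (x.w b0 k ω)).D.L.J a - r)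
    rw [hcv]
    rfl
  · rw [dif_neg h]
    refine Eq.trans ?_ (dif_neg (show ¬ ((p.k1 ≤ ag (kp x b0 a d) k ω ∧ kp x b0 a d (k + βr p) ω = kp x b0 a d k ω) ∧
      vd x oo b0 a r d k (x.w b0 k ω)) from h)).symm
    rfl

theorem near_lab (μ : ℕ) (o : Fin 7 → ℝ) {K' : ℝ} (hK : 640 * 648 ^ 7 ≤ K') (d T : ℕ) (b bS : Win Ω → ℕ → ℕ)
    (hb : (∀ w k, b w k = w.c.I.m * (w.b0 + k * w.s)) ∨ ∀ w k, b w k = bS w k) :
    ∑ b0 ∈ x.bs, ∑ k ∈ range T, ∑ a ∈ range (x.c.I.ha + 1), ∑ r ∈ range (p.B + 1),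
      x.Q1.ex ((lD x oo b0 μ o a r d).bd x.Q1 (kp x b0 a d) (x.w b0) 648 p.k1 (βr p) (b (x.win oo b0)) k) ≤
      Real.sqrt (x.bs.card * T * (NT x.c : ℕ)) *
        Real.sqrt (x.mean oo T (fun w k z => sOff (w.R k z) (w.nm k z) (bS w k) μ K' o)) := by
  classical
  have key := near_row x oo (lbs x) T (βr p) (fun y l ω => p.k1 ≤ ag (kp x y.1 l.1 d) y.2 ω ∧
      kp x y.1 l.1 d (y.2 + βr p) ω = kp x y.1 l.1 d y.2 ω) (fun y l z => vd x oo y.1 l.1 l.2 d y.2 z)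
    (fun y l z _ => ((x.win oo y.1).cv y.2 z).D.L.J l.1 - l.2)
    (fun y _ l _ z h => h.choose.bits)
    (fun y _ l _ z h hz => Nat.lt_succ_iff.1 (Finset.mem_range.1 (Finset.mem_filter.1 (v0_cv x hz h).mem).1))
    (fun y _ z hz l _ l' _ h h' e => Prod.ext ((v0_cv x hz h).inj (v0_cv x hz h') e).1
      ((v0_cv x hz h).inj (v0_cv x hz h') e).2) (μ := μ) (o := o) hK b bS hb
  refine le_trans (le_of_eq ?_) key
  refine Finset.sum_congr rfl fun b0 _ => Finset.sum_congr rfl fun k _ => ?_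
  unfold lbs
  rw [Finset.sum_product]
  refine Finset.sum_congr rfl fun a _ => Finset.sum_congr rfl fun r _ => ?_
  refine x.Q1.ex_congr fun ω hω => ?_
  have hz : 0 < x.Q1.pr (x.w b0 k) (x.w b0 k ω) := x.Q1.pr_pos _ hω
  have hcv : (x.win oo b0).cv k (x.w b0 k ω) = x.C oo b0 k (x.w b0 k ω) hz := (x.win oo b0).cv_eq hz
  unfold LD.bd
  by_cases h : (lD x oo b0 μ o a r d).on (kp x b0 a d) (x.w b0) p.k1 (βr p) k ω
  · rw [dif_pos h]
    refine Eq.trans ?_ (dif_pos (show (p.k1 ≤ ag (kp x b0 a d) k ω ∧ kp x b0 a d (k + βr p) ω = kp x b0 a d k ω) ∧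
      vd x oo b0 a r d k (x.w b0 k ω) from h)).symm
    show _ = Real.sqrt (prE (x.Q1.cond (x.w b0 (k + βr p)) (x.w b0 (k + βr p) ω))
      ((H101.lc (((x.win oo b0).cv k (x.w b0 k ω)).erun ((x.win oo b0).cv_m k (x.w b0 k ω))).C μ o).Bad (640 * 648 ^ 7)
        (((x.win oo b0).cv k (x.w b0 k ω)).D.L.J a - r) (b (x.win oo b0) k)))
    have h3 := (x.win oo b0).cv_m k (x.w b0 k ω)
    have : ∀ (C' : C2 Ω) (h3 : 3 ≤ C'.I.m), C' = x.C oo b0 k (x.w b0 k ω) hz →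
        Real.sqrt (prE (x.Q1.cond (x.w b0 (k + βr p)) (x.w b0 (k + βr p) ω))
          (((lD x oo b0 μ o a r d).C k (x.w b0 k ω) h.2).Bad (640 * 648 ^ 7) ((lD x oo b0 μ o a r d).x k (x.w b0 k ω) h.2)
            (b (x.win oo b0) k))) =
        Real.sqrt (prE (x.Q1.cond (x.w b0 (k + βr p)) (x.w b0 (k + βr p) ω))
          ((H101.lc (C'.erun h3).C μ o).Bad (640 * 648 ^ 7) (C'.D.L.J a - r) (b (x.win oo b0) k))) := by
      intro C' h3 hC
      subst hC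
      rfl
    exact this _ _ hcv
  · rw [dif_neg h]
    refine Eq.trans ?_ (dif_neg (show ¬ ((p.k1 ≤ ag (kp x b0 a d) k ω ∧ kp x b0 a d (k + βr p) ω = kp x b0 a d k ω) ∧
      vd x oo b0 a r d k (x.w b0 k ω)) from h)).symm
    rfl

/-- **near part, cap of the place** -/
theorem near_c (μ : ℕ) (o : Fin 7 → ℝ) {K' : ℝ} (hK : 640 * 648 ^ 7 ≤ K') (d T : ℕ) :
    ∑ b0 ∈ x.bs, ∑ k ∈ range T, ∑ a ∈ range (x.c.I.ha + 1), ∑ r ∈ range (p.B + 1),
      x.Q1.ex ((lD x oo b0 μ o a r d).bd x.Q1 (kp x b0 a d) (x.w b0) 648 p.k1 (βr p) (lD x oo b0 μ o a r d).bc k) ≤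
      Real.sqrt (x.bs.card * T * (NT x.c : ℕ)) *
        Real.sqrt (x.mean oo T (fun w k z => sOff (w.R k z) (w.nm k z) (w.bS p.fp k) μ K' o)) :=
  near_lab x oo μ o hK d T (fun w k => w.c.I.m * (w.b0 + k * w.s)) (fun w k => w.bS p.fp k) (Or.inl fun _ _ => rfl)

/-- **near part, later cap** -/
theorem near_S (μ : ℕ) (o : Fin 7 → ℝ) {K' : ℝ} (hK : 640 * 648 ^ 7 ≤ K') (d T : ℕ) :
    ∑ b0 ∈ x.bs, ∑ k ∈ range T, ∑ a ∈ range (x.c.I.ha + 1), ∑ r ∈ range (p.B + 1),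
      x.Q1.ex ((lD x oo b0 μ o a r d).bd x.Q1 (kp x b0 a d) (x.w b0) 648 p.k1 (βr p) (lD x oo b0 μ o a r d).bS k) ≤
      Real.sqrt (x.bs.card * T * (NT x.c : ℕ)) *
        Real.sqrt (x.mean oo T (fun w k z => sOff (w.R k z) (w.nm k z) (w.bS p.fp k) μ K' o)) :=
  near_lab x oo μ o hK d T (fun w k => w.bS p.fp k) (fun w k => w.bS p.fp k) (Or.inr fun _ _ => rfl)

end row

end Vale.Agent.P106.U.H661.SD
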