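import Vale.Agent.P106.U.H661.SOld
import Vale.Agent.P106.U.H715.LowP

/-!
# P106 / U / H711 / PlaceR : the old part of row [S] at one place (helper711)

* **`plO_r`** : 661's `PlO`: the sum over the pairs of steps is a sum over the labels `(a, r)` with `a > g`, the levels `≤ g` cost
  `(g + 1) B log nFew`.
-/

set_option autoImplicit false

namespace Vale.Agent.P106.U.H661.SD

open Finset Vale.Agent.P127 Vale.Agent.P127.Stk Vale.Agent.P127.U Vale.Agent.P106.W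
open Vale.Agent.P106.U Vale.Agent.P106.U.H449
open Vale.Agent.P106.U.H565 Vale.Agent.P106.U.H823.NumW Vale.Agent.P106.U.H823.PathNum
open Vale.Agent.P106.U.H61.PS Vale.Agent.P106.U.H61.Reg Vale.Agent.P106.U.H61.Ext2
open Vale.Agent.P106.U.H661.SPairB Vale.Agent.P106.U.H661.SLab Vale.Agent.P106.U.H661.Age
open Vale.Agent.P106.U.H523.FewS
open Vale.Agent.P106.U.H712.Fam (Win Vl)
open Vale.Agent.P106.U.H101 (lc)
open Vale.Agent.P106.U.S3 (LTh LDk At' IdO lv Run)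

variable {σ : S5.Cst} {cc : ℝ} {J M Md : ℕ} {p : H61.PS.Par} {X0 R0 h0 : ℕ} {Ω : Type} [Fintype Ω]
  (x : Ctx σ cc J M Md p X0 R0 h0 Ω)

/-- `mem_filter`, for any instance -/
theorem mf {s : Finset ℕ} {P : ℕ → Prop} {inst : DecidablePred P} {a : ℕ} (h : a ∈ @Finset.filter ℕ P inst s) :
    a ∈ s ∧ P a := Finset.mem_filter.1 h

open Classical in
/-- the cost of a valid label with old index -/
theorem gL_eq (oo : Oo) {b0 μ a r d k : ℕ} {o : Fin 7 → ℝ} {ω : Ω} (hω : 0 < x.Q1.w ω)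
    (h1 : p.k1 ≤ ag (kp x b0 a d) k ω) (h2 : vd x oo b0 a r d k (x.w b0 k ω)) :
    gL x oo b0 μ o a r d k ω =
      mi ((x.win oo b0).R k (x.w b0 k ω)).Q
        (LTh (lc ((x.win oo b0).R k (x.w b0 k ω)).C μ o)
          (((x.win oo b0).R k (x.w b0 k ω)).m * ((x.win oo b0).R k (x.w b0 k ω)).b1)
          (((x.win oo b0).cv k (x.w b0 k ω)).D.L.J (a + d)))
        ((lc ((x.win oo b0).R k (x.w b0 k ω)).C μ o).cell (((x.win oo b0).cv k (x.w b0 k ω)).D.L.J a - r)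
          ((x.win oo b0).bS p.fp k))
        (LDk (lc ((x.win oo b0).R k (x.w b0 k ω)).C μ o)
          (((x.win oo b0).R k (x.w b0 k ω)).m * ((x.win oo b0).R k (x.w b0 k ω)).b1)
          (((x.win oo b0).cv k (x.w b0 k ω)).D.L.J a - r)) := by
  have hz : 0 < x.Q1.pr (x.w b0 k) (x.w b0 k ω) := x.Q1.pr_pos _ hω
  have hcv : (x.win oo b0).cv k (x.w b0 k ω) = x.C oo b0 k (x.w b0 k ω) hz := (x.win oo b0).cv_eq hz
  unfold gL
  rw [dif_pos (show p.k1 ≤ ag (kp x b0 a d) k ω ∧ (lD x oo b0 μ o a r d).val k (x.w b0 k ω) from ⟨h1, h2⟩)]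
  have key : ∀ (C' : C2 Ω) (h3 : 3 ≤ C'.I.m), C' = x.C oo b0 k (x.w b0 k ω) hz →
      mi (x.Q1.cond (x.w b0 k) (x.w b0 k ω)) ((lD x oo b0 μ o a r d).Tv k (x.w b0 k ω) h2)
        ((lD x oo b0 μ o a r d).Ev k (x.w b0 k ω) h2) ((lD x oo b0 μ o a r d).Dv k (x.w b0 k ω) h2) =
      mi (C'.erun h3).Q (LTh (lc (C'.erun h3).C μ o) ((C'.erun h3).m * (C'.erun h3).b1) (C'.D.L.J (a + d)))
        ((lc (C'.erun h3).C μ o).cell (C'.D.L.J a - r) ((x.win oo b0).bS p.fp k))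
        (LDk (lc (C'.erun h3).C μ o) ((C'.erun h3).m * (C'.erun h3).b1) (C'.D.L.J a - r)) := by
    intro C' h3 hC
    subst hC
    rfl
  exact key _ _ hcv

open Classical in
/-- **the old part at a place** -/
theorem plO_r (oo : Oo) {b0 μ d : ℕ} (o : Fin 7 → ℝ) (hb : b0 ∈ x.bs) (hμ : μ ≤ p.B) (hd : d ≤ p.B)
    (hr : 8 * μ ≤ x.c.I.rs) : PlO x oo b0 μ o d := by
  intro k ω hω hg
  have hz : 0 < x.Q1.pr (x.w b0 k) (x.w b0 k ω) := x.Q1.pr_pos _ hω
  have hz' : 0 < (x.win oo b0).Q1.pr ((x.win oo b0).Z k) (x.w b0 k ω) := hz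
  have h8 := (x.mem_bs.1 hb).2
  have hOk : x.Ok oo 0 b0 k (x.w b0 k ω) := x.ok oo hz h8 (Nat.zero_le _) hg
  have hcv : (x.win oo b0).cv k (x.w b0 k ω) = x.C oo b0 k (x.w b0 k ω) hz := (x.win oo b0).cv_eq hz
  have h1 := H715.OldS.yS_cut (x.win oo b0) (x.ho oo b0) p.fp hz' hg (o := o) (d := d) p.g
    (fun a => ¬ H715.OldS.yn (x.win oo b0) (H715.RegC.Fo x.c x.E1) (MM p) p.g d p.k1 k (x.w b0 k ω) a) hμ x.eB h8 hr
  unfold oS
  refine h1.trans (add_le_add ?_ (le_of_eq ?_))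
  · obtain ⟨Ac, rc, H⟩ := (x.ho oo b0).hyp k (x.w b0 k ω) hz' hg
    have hH : Has ((x.win oo b0).cv k (x.w b0 k ω)).D ((x.win oo b0).R k (x.w b0 k ω)) ((x.win oo b0).nm k (x.w b0 k ω)) :=
      C2.has_erun (hm := (x.win oo b0).cv_m k (x.w b0 k ω)) H
    have hnN : ((x.win oo b0).R k (x.w b0 k ω)).n ≤ ((x.win oo b0).cv k (x.w b0 k ω)).D.N := by
      have := hH.N
      omega
    unfold H715.OldS.yS
    rw [sum_pair hH (A := x.c.I.ha + 1) _ (fun j hj => ?_) (fun j hj => ?_) (fun j i =>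
      mi ((x.win oo b0).R k (x.w b0 k ω)).Q (LTh (lc ((x.win oo b0).R k (x.w b0 k ω)).C μ o)
        (((x.win oo b0).R k (x.w b0 k ω)).m * ((x.win oo b0).R k (x.w b0 k ω)).b1) i)
        ((lc ((x.win oo b0).R k (x.w b0 k ω)).C μ o).cell j ((x.win oo b0).bS p.fp k))
        (LDk (lc ((x.win oo b0).R k (x.w b0 k ω)).C μ o)
          (((x.win oo b0).R k (x.w b0 k ω)).m * ((x.win oo b0).R k (x.w b0 k ω)).b1) j)), Finset.sum_product]
    · refine Finset.sum_le_sum fun a ha => Finset.sum_le_sum fun r hr' => ?_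
      split_ifs with hc
      · obtain ⟨c1, c2, c3, c4, c5⟩ := hc
        obtain ⟨c0, c1⟩ := mf c1
        unfold IdO at c0
        rw [Finset.mem_filter, Finset.mem_Icc] at c0
        have hlv := lv_eq hH (show ((x.win oo b0).cv k (x.w b0 k ω)).D.L.J (a, r).1 - (a, r).2 ≤ _ from c0.1.2.trans hnN)
        rw [lev_sub _ c2] at hlv
        rw [hlv] at c1
        have hV : V0 ((x.win oo b0).cv k (x.w b0 k ω)).D p.B p.g a r d :=
          ⟨Nat.lt_succ_iff.1 (Finset.mem_range.1 hr'), hd, c1.2, c2, c0.1.2, c3, c4, c5⟩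
        rw [hcv] at hV
        have hvd : vd x oo b0 a r d k (x.w b0 k ω) := ⟨hOk, hV⟩
        have hag : p.k1 ≤ ag (kp x b0 a d) k ω := by
          have h3 := (H715.OldS.yn_iff (x.win oo b0) (F := H715.RegC.Fo x.c x.E1) (M := MM p) (a := a) (g := p.g) (d := d)
            (K1 := p.k1) (k := k) ω)
          exact not_lt.1 fun h4 => c1.1 (h3.2 h4)
        exact (gL_eq x oo hω hag hvd).ge
      · unfold gL
        split_ifs
        · exact mi_nonneg _ _ _ _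
        · exact le_rfl
    · obtain ⟨c0, -⟩ := mf hj
      unfold IdO at c0
      rw [Finset.mem_filter, Finset.mem_Icc] at c0
      exact c0.1.2.trans hnN
    · obtain ⟨c0, -⟩ := mf hj
      unfold IdO at c0
      rw [Finset.mem_filter, Finset.mem_Icc] at c0
      have h2 := H715.OldS.lv_le (x.win oo b0) (x.ho oo b0) hz' hg c0.1.2
      rw [lv_eq hH (c0.1.2.trans hnN)] at h2
      exact Nat.lt_succ_of_le h2
  · rw [show (x.win oo b0).c.I.m = p.m from x.em]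
    rfl

end Vale.Agent.P106.U.H661.SD
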