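import Vale.Agent.P106.U.H712.SLast
import Vale.Agent.P106.U.H711.LabW
import Vale.Agent.P106.U.H711.PlaceR
import Vale.Agent.P106.U.H715.UndS

/-!
# P106 / U / H711 / SWinR : the window theorem of row [S] (helper711)

* `numW` : the numbers;  `AW` : the constant of the telescope part.
* **`sWin : SWin`**, **`rowS_r : RowS FS`**.
-/

set_option autoImplicit false

namespace Vale.Agent.P106.U.H711.SWinR

open Finset Vale.Agent.P127 Vale.Agent.P127.Stk Vale.Agent.P127.U Vale.Agent.P106.W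
open Vale.Agent.P106.U Vale.Agent.P106.U.H449
open Vale.Agent.P106.U.H565 Vale.Agent.P106.U.H823.NumW
open Vale.Agent.P106.U.H61.PS Vale.Agent.P106.U.H61.Ext2
open Vale.Agent.P106.U.H661.SPair Vale.Agent.P106.U.H661.SPairB Vale.Agent.P106.U.H661.SD
open Vale.Agent.P106.U.H523.FewS Vale.Agent.P106.U.H661.FewX
open Vale.Agent.P106.U.H712.Fam (Win Vl)
open Vale.Agent.P106.U.H712.SLast

theorem nFew_pos (m B μ : ℕ) : 1 ≤ nFew m B μ := by
  unfold nFew nLTh nA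
  exact Nat.mul_pos (Nat.mul_pos (Nat.pow_pos (Nat.pow_pos (by omega))) (Nat.pow_pos (Nat.pow_pos (by omega)))) (by omega)

/-- the largest entropy of a pair -/
noncomputable def LM (m B : ℕ) : ℝ := ∑ μ ∈ range (B + 1), Real.log (nFew m B μ)

theorem LM_ge {m B μ : ℕ} (h : μ ≤ B) : Real.log (nFew m B μ) ≤ LM m B :=
  Finset.single_le_sum (f := fun μ => Real.log (nFew m B μ)) (fun _ _ => Real.log_natCast_nonneg _)
    (Finset.mem_range.2 (Nat.lt_succ_of_le h))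

theorem LM_nonneg (m B : ℕ) : 0 ≤ LM m B := Finset.sum_nonneg fun _ _ => Real.log_natCast_nonneg _

/-- constant of the telescope part -/
noncomputable def AW (m B g _D0 s L : ℕ) : ℝ :=
  6 * (B + 1) * (9 * L) * LM m B + (g + 1) * B * LM m B + 4 * (g + B + 1) * (L * s + 2 * B + 2) * B * LM m B

theorem AW_nonneg (m B g D0 s L : ℕ) : 0 ≤ AW m B g D0 s L := by
  have := LM_nonneg m B
  unfold AW
  positivity

/-- the numbers of the window -/
structure NumW (J : ℕ) (p : H61.PS.Par) (X0 h0 : ℕ) : Prop where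
  g : p.B + J + 2 ≤ p.g
  BL : p.B ≤ p.L * p.s
  L : 1 ≤ p.L
  s : 1 ≤ p.s
  X : 8 * p.B ≤ X0
  k1 : 9 * p.L + 1 ≤ p.k1
  h : p.m * (J + 4) ≤ h0
  hk : p.m * p.k1 ≤ h0

theorem numW (J : ℕ) : Evp fun p X0 _ h0 => NumW J p X0 h0 :=
  ⟨1, fun m _ => ⟨1, fun B _ => ⟨B + J + 2, fun _ hg => ⟨0, fun _ _ _ L hs hL hBL => ⟨9 * L + 1, fun k1 hk1 => ⟨1, fun _ _ =>
    ⟨8 * B, 0, max (m * (J + 4)) (m * k1), fun _ _ _ hX _ hh =>
      ⟨hg, hBL, hL, hs, hX, hk1, (le_max_left _ _).trans hh, (le_max_right _ _).trans hh⟩⟩⟩⟩⟩⟩⟩⟩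

/-- the telescope part -/
theorem tel_le {H T k1 β N HA bs nB B g d MW LN LMx : ℝ} (hH : 0 ≤ H) (hT : 0 ≤ T) (hk : 1 ≤ k1) (hβ0 : 0 ≤ β)
    (hβ : β ≤ k1) (hHA : HA ≤ 2 * H) (hHA0 : 0 ≤ HA) (hkH : k1 ≤ H) (hbs0 : 0 ≤ bs) (hbs : bs ≤ nB) (hB : 0 ≤ B) (hg : 0 ≤ g)
    (hd0 : 0 ≤ d) (hd : d ≤ B) (hM : 0 ≤ MW) (hL0 : 0 ≤ LN) (hL : LN ≤ LMx)
    (hN : N = 6 * (B + 1) * β * LMx + (g + 1) * B * LMx + 4 * (g + B + 1) * MW * B * LMx) :
    nB * (HA * ((k1 * ((g + d + 1) * (2 * MW))) * (B * LN))) +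
      bs * ((HA * (B + 1)) * ((β + 2 * (β * (T + β)) / k1) * LN) + T * ((g + 1) * (B * LN))) ≤
      nB * (H * (N * (T / k1 + k1))) := by
  have hk0 : 0 < k1 := by linarith
  have hnB : 0 ≤ nB := hbs0.trans hbs
  set q : ℝ := T / k1 with hq
  have hq0 : 0 ≤ q := by rw [hq]; positivity
  have hTq : T = q * k1 := by rw [hq]; field_simp
  have hLM0 : 0 ≤ LMx := hL0.trans hL
  have e1 : β + 2 * (β * (T + β)) / k1 ≤ 3 * β * (q + k1) := by
    have e2 : 2 * (β * (T + β)) / k1 = 2 * β * q + 2 * β * (β / k1) := by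
      rw [hq]
      field_simp
    have e3 : β / k1 ≤ 1 := by
      rw [div_le_one hk0]
      exact hβ
    rw [e2]
    have e4 : 2 * β * (β / k1) ≤ 2 * β * 1 := mul_le_mul_of_nonneg_left e3 (by positivity)
    nlinarith [mul_nonneg hβ0 hq0, mul_le_mul_of_nonneg_left hk hβ0]
  have e2 : T ≤ H * q := by
    rw [hTq, mul_comm]
    exact mul_le_mul_of_nonneg_right hkH hq0
  have p1 : 0 ≤ k1 * ((g + d + 1) * (2 * MW)) := by positivity
  have f1 : HA * ((k1 * ((g + d + 1) * (2 * MW))) * (B * LN)) ≤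
      H * (q + k1) * (4 * (g + B + 1) * MW * B * LMx) := by
    have a1 : (k1 * ((g + d + 1) * (2 * MW))) * (B * LN) ≤ (k1 * ((g + B + 1) * (2 * MW))) * (B * LMx) := by
      gcongr
    have a0 : 0 ≤ (k1 * ((g + B + 1) * (2 * MW))) * (B * LMx) := by positivity
    calc HA * ((k1 * ((g + d + 1) * (2 * MW))) * (B * LN)) ≤ HA * ((k1 * ((g + B + 1) * (2 * MW))) * (B * LMx)) :=
          mul_le_mul_of_nonneg_left a1 hHA0
      _ ≤ 2 * H * ((k1 * ((g + B + 1) * (2 * MW))) * (B * LMx)) := mul_le_mul_of_nonneg_right hHA a0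
      _ = H * k1 * (4 * (g + B + 1) * MW * B * LMx) := by ring
      _ ≤ H * (q + k1) * (4 * (g + B + 1) * MW * B * LMx) := by
          gcongr
          linarith
  have f2 : (HA * (B + 1)) * ((β + 2 * (β * (T + β)) / k1) * LN) ≤ H * (q + k1) * (6 * (B + 1) * β * LMx) := by
    have a1 : (β + 2 * (β * (T + β)) / k1) * LN ≤ 3 * β * (q + k1) * LMx :=
      mul_le_mul e1 hL hL0 (by positivity)
    have a0 : 0 ≤ 3 * β * (q + k1) * LMx := by positivity
    calc (HA * (B + 1)) * ((β + 2 * (β * (T + β)) / k1) * LN) ≤ (HA * (B + 1)) * (3 * β * (q + k1) * LMx) :=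
          mul_le_mul_of_nonneg_left a1 (by positivity)
      _ ≤ (2 * H * (B + 1)) * (3 * β * (q + k1) * LMx) := by gcongr
      _ = _ := by ring
  have f3 : T * ((g + 1) * (B * LN)) ≤ H * (q + k1) * ((g + 1) * B * LMx) := by
    have a1 : (g + 1) * (B * LN) ≤ (g + 1) * (B * LMx) := by gcongr
    have a0 : 0 ≤ (g + 1) * (B * LMx) := by positivity
    calc T * ((g + 1) * (B * LN)) ≤ T * ((g + 1) * (B * LMx)) := mul_le_mul_of_nonneg_left a1 hT
      _ ≤ (H * q) * ((g + 1) * (B * LMx)) := mul_le_mul_of_nonneg_right e2 a0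
      _ ≤ (H * (q + k1)) * ((g + 1) * (B * LMx)) := by
          gcongr
          linarith
      _ = _ := by ring
  have g2 : bs * ((HA * (B + 1)) * ((β + 2 * (β * (T + β)) / k1) * LN) + T * ((g + 1) * (B * LN))) ≤
      nB * (H * (q + k1) * (6 * (B + 1) * β * LMx) + H * (q + k1) * ((g + 1) * B * LMx)) := by
    have a0 : 0 ≤ H * (q + k1) * (6 * (B + 1) * β * LMx) + H * (q + k1) * ((g + 1) * B * LMx) := by positivity
    exact (mul_le_mul_of_nonneg_left (add_le_add f2 f3) hbs0).trans (mul_le_mul_of_nonneg_right hbs a0)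
  have g1 := mul_le_mul_of_nonneg_left f1 hnB
  refine (add_le_add g1 g2).trans (le_of_eq ?_)
  rw [hN]
  ring

/-- **the window theorem of row [S]** -/
theorem sWin : SWin := by
  classical
  intro σ hσ K Cψ cc J M Md hC
  have hK10 := hσ.bs.K10
  have hcR : 0 ≤ cR (MF 6 648) := cR_nonneg _
  have hcC : 0 ≤ cC 648 := cC_nonneg _
  refine ⟨AW, 2 * cR (MF 6 648), 2 * (cC 648 * Real.sqrt (20 + 10 * σ.K1)), AW_nonneg, by positivity, by positivity, ?_⟩
  refine (numW J).mono ?_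
  intro p X0 R0 h0 hn Ω _ x oo μ hμ hm K' hK' o o' ho d hd
  have em : x.c.I.m = p.m := x.em
  have hm3 := x.hm
  have hm1 : 1 ≤ p.m := by omega
  have nu : Nu x := ⟨by rw [x.eJ]; exact hn.g, hn.BL, hn.L, hn.s, hm1, hn.X.trans x.hX0⟩
  have hk1 : 0 < p.k1 := by have := hn.k1; omega
  have hβ : βr p ≤ p.k1 := by unfold βr; have := hn.k1; omega
  have hr : 8 * μ ≤ x.c.I.rs := by
    have := nu.hrs
    omega
  have hK2 : (640 : ℝ) * 648 ^ 7 ≤ K' := by
    refine le_trans ?_ hK'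
    have h1 : (64800 : ℝ) ≤ 100 * K := by linarith [hC.hK]
    calc (640 : ℝ) * 648 ^ 7 ≤ 64800 ^ 20 := by norm_num
      _ ≤ (100 * K) ^ 20 := pow_le_pow_left₀ (by norm_num) h1 20
  -- the old part
  have hO := s_old_of x nu oo hμ o hk1 hβ (nFew_pos p.m p.B μ) (fun b0 hb => plO_r x oo o hb hμ hd hr)
    (far_lab x oo μ o d p.Tc) (near_c x oo μ o hK2 d p.Tc) (near_S x oo μ o hK2 d p.Tc)
  -- the young part
  have hY := H715.OldS.old_sum x oo (H715.RegC.Fo x.c x.E1) (MM p) p.g p.Tc o (d := d) le_rfl (by have := hn.g; omega) hμ hr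
  -- the split
  have hs : x.mean oo p.Tc (fun w k z => if p.k1 ≤ k then
      sS (w.R k z) (w.nm k z) p.B (w.bS p.fp k) (w.Vs p.fp k z) (w.Xs p.fp k z) μ o d else 0) =
      x.mean oo p.Tc (fun w k z => if p.k1 ≤ k then
        H715.OldS.yS (w.R k z) (w.nm k z) p.B (w.bS p.fp k) (w.Vs p.fp k z) (w.Xs p.fp k z) μ o d
          (H715.OldS.yn w (H715.RegC.Fo x.c x.E1) (MM p) p.g d p.k1 k z) else 0) +
      x.mean oo p.Tc (fun w k z => if p.k1 ≤ k then oS x w μ o d k z else 0) := by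
    rw [← x.mean_add]
    congr 1
    funext w k z
    split_ifs
    · exact H715.OldS.yS_split _ _ _ _ _ _ _ _ _ _
    · rw [add_zero]
  rw [hs]
  -- numbers
  have hmr : (0 : ℝ) < p.m := by exact_mod_cast hm1
  have hJh : p.m * (J + 4) ≤ x.c.I.h := hn.h.trans x.hh
  have hkh : p.m * p.k1 ≤ x.c.I.h := hn.hk.trans x.hh
  set H : ℝ := (x.c.I.h : ℝ) / p.m with hH
  have hJH : (J : ℝ) + 4 ≤ H := by
    rw [hH, le_div_iff₀ hmr, mul_comm]
    exact_mod_cast hJh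
  have hkH : (p.k1 : ℝ) ≤ H := by
    rw [hH, le_div_iff₀ hmr, mul_comm]
    exact_mod_cast hkh
  have hJ0 : (0 : ℝ) ≤ J := Nat.cast_nonneg _
  have hH0 : 0 ≤ H := by linarith
  have hNT : (NT x.c : ℝ) ≤ (20 + 10 * σ.K1) * H := by
    have h1 := H449.NLe.NT_le' x.good hK10.le (by rw [x.eJ, em]; exact hJH)
    rw [em] at h1
    exact h1
  have hHA : (x.c.I.ha : ℝ) + 1 ≤ 2 * H := by
    have h1 : (x.c.I.ha : ℝ) ≤ H := by
      rw [hH, le_div_iff₀ hmr]
      have h2 := x.good.hah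
      rw [em] at h2
      have h3 : ((p.m * x.c.I.ha : ℕ) : ℝ) ≤ (x.c.I.h : ℝ) := by exact_mod_cast h2
      push_cast at h3
      linarith
    linarith
  have hbs : (x.bs.card : ℝ) ≤ x.nB := by exact_mod_cast H715.OldS.card_bs x
  -- telescope
  have hT := tel_le (H := H) (T := p.Tc) (k1 := p.k1) (β := βr p) (HA := x.c.I.ha + 1) (bs := x.bs.card) (nB := x.nB)
    (B := p.B) (g := p.g) (d := d) (MW := MM p) (LN := Real.log (nFew p.m p.B μ)) (LMx := LM p.m p.B) hH0 (Nat.cast_nonneg _)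
    (by exact_mod_cast hk1) (Nat.cast_nonneg _) (by exact_mod_cast hβ) hHA (by positivity) hkH (Nat.cast_nonneg _) hbs
    (Nat.cast_nonneg _) (Nat.cast_nonneg _) (Nat.cast_nonneg _) (by exact_mod_cast hd) (Nat.cast_nonneg _)
    (Real.log_natCast_nonneg _) (LM_ge hμ) (N := AW p.m p.B p.g p.D0 p.s p.L) (by
      unfold AW βr MM
      push_cast
      ring)
  -- near
  set Y : ℝ := x.mean oo (2 * p.Tc) (fun w k z => sOff (w.R k z) (w.nm k z) (w.bS p.fp k) μ K' o) with hYd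
  have hKp : 0 < K' := lt_of_lt_of_le (by norm_num) hK2
  have hYm : x.mean oo p.Tc (fun w k z => sOff (w.R k z) (w.nm k z) (w.bS p.fp k) μ K' o) ≤ Y :=
    x.mean_range (fun w k z => sOff_nonneg) (by omega)
  have hNear : Real.sqrt (x.bs.card * p.Tc * (NT x.c : ℕ)) *
      Real.sqrt (x.mean oo p.Tc (fun w k z => sOff (w.R k z) (w.nm k z) (w.bS p.fp k) μ K' o)) ≤
      Real.sqrt (20 + 10 * σ.K1) * (Real.sqrt (x.nB * p.Tc * H) * Real.sqrt Y) := by
    have h20 : (0 : ℝ) ≤ 20 + 10 * σ.K1 := by linarith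
    rw [← mul_assoc, ← Real.sqrt_mul h20]
    refine mul_le_mul (Real.sqrt_le_sqrt ?_) (Real.sqrt_le_sqrt hYm) (Real.sqrt_nonneg _) (Real.sqrt_nonneg _)
    calc (x.bs.card : ℝ) * p.Tc * (NT x.c : ℕ) ≤ x.nB * p.Tc * ((20 + 10 * σ.K1) * H) := by
          refine mul_le_mul (mul_le_mul_of_nonneg_right hbs (Nat.cast_nonneg _)) hNT (Nat.cast_nonneg _) (by positivity)
      _ = (20 + 10 * σ.K1) * (x.nB * p.Tc * H) := by ring
  have hNear2 := mul_le_mul_of_nonneg_left (add_le_add hNear hNear) hcC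
  have hfin := add_le_add hY hO
  refine hfin.trans ?_
  linarith

/-- **row [S]** -/
theorem rowS_r : RowS FS := rowS_of sWin

end Vale.Agent.P106.U.H711.SWinR
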